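import Vale.Agent.P060.Main

namespace Vale.Agent.P060

open Finset

variable {V : Type*} [Fintype V]

/-- From a maximum matching `M` of `H`: the free vertices that see no edge of `M` completely
(`U0`), together with `|M|` pairs, give both a colouring and a clique minor of the complement. -/
theorem compl_minor_and_coloring_gen (H : SimpleGraph V) (k : ℕ)
    (M : Finset (V × V)) (hM : IsPM H M) (hmax : ∀ M', IsPM H M' → M'.card ≤ M.card)
    (hex : ∀ X Y : Finset V, Disjoint X Y → X.card = M.card → Y.card = M.card →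
      ∃ N, Valid H X Y k N ∧ N.card = M.card) :
    ∃ U0 : Finset V, (∀ u, u ∈ U0 ↔ (¬ Cov M u ∧ ¬ ∃ e ∈ M, H.Adj u e.1 ∧ H.Adj u e.2)) ∧
      HasCliqueMinor Hᶜ (U0.card + M.card) ∧ Hᶜ.Colorable (U0.card + M.card) := by
  classical
  set U0 : Finset V :=
    univ.filter (fun u => ¬ Cov M u ∧ ¬ ∃ e ∈ M, H.Adj u e.1 ∧ H.Adj u e.2) with hU0
  have memU0 : ∀ u, u ∈ U0 ↔ (¬ Cov M u ∧ ¬ ∃ e ∈ M, H.Adj u e.1 ∧ H.Adj u e.2) := by
    intro u; simp [hU0]
  refine ⟨U0, memU0, ?_, ?_⟩
  · -- the minor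
    let o : V × V → V × V := fun e => if ∃ u ∈ U0, H.Adj u e.2 then (e.2, e.1) else e
    have ho : ∀ e, o e = e ∨ o e = (e.2, e.1) := by
      intro e
      by_cases hc : ∃ u ∈ U0, H.Adj u e.2
      · right; simp [o, hc]
      · left; simp [o, hc]
    have hoY : ∀ e ∈ M, ∀ u ∈ U0, ¬ H.Adj u (o e).2 := by
      intro e he u' hu' hadj
      by_cases hc : ∃ u ∈ U0, H.Adj u e.2
      · have : o e = (e.2, e.1) := by simp [o, hc]
        rw [this] at hadj
        obtain ⟨u, hu, hue⟩ := hc
        by_cases huu : u' = u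
        · subst huu
          exact ((memU0 u').mp hu').2 ⟨e, he, hadj, hue⟩
        · exact max_no_aug hM hmax he ((memU0 u').mp hu').1 ((memU0 u).mp hu).1 huu hadj hue
      · have : o e = e := by simp [o, hc]
        rw [this] at hadj
        exact hc ⟨u', hu', hadj⟩
    have hne : ∀ e ∈ M, e.1 ≠ e.2 := fun e he => (hM.adj e he).ne
    set X := M.image (fun e => (o e).1) with hX
    set Y := M.image (fun e => (o e).2) with hY
    have hXc : X.card = M.card := by
      apply card_image_of_injOn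
      intro e he f hf hef
      by_contra hcon
      have hd4 := hM.disj e he f hf hcon
      simp only at hef
      rcases ho e with h1 | h1 <;> rcases ho f with h2 | h2 <;> rw [h1, h2] at hef
      · exact hd4.1 hef
      · exact hd4.2.1 hef
      · exact hd4.2.2.1 hef
      · exact hd4.2.2.2 hef
    have hYc : Y.card = M.card := by
      apply card_image_of_injOn
      intro e he f hf hef
      by_contra hcon
      have hd4 := hM.disj e he f hf hcon
      simp only at hef
      rcases ho e with h1 | h1 <;> rcases ho f with h2 | h2 <;> rw [h1, h2] at hef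
      · exact hd4.2.2.2 hef
      · exact hd4.2.2.1 hef
      · exact hd4.2.1 hef
      · exact hd4.1 hef
    have hXY : Disjoint X Y := by
      rw [disjoint_left]
      intro v hvX hvY
      obtain ⟨e, he, rfl⟩ := mem_image.mp hvX
      obtain ⟨f, hf, hef⟩ := mem_image.mp hvY
      by_cases hcon : e = f
      · subst hcon
        rcases ho e with h1 | h1 <;> rw [h1] at hef
        · exact hne e he hef.symm
        · exact hne e he hef
      · have hd4 := hM.disj e he f hf hcon
        rcases ho e with h1 | h1 <;> rcases ho f with h2 | h2 <;> rw [h1, h2] at hef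
        · exact hd4.2.1 hef.symm
        · exact hd4.1 hef.symm
        · exact hd4.2.2.2 hef.symm
        · exact hd4.2.2.1 hef.symm
    have hXcov : ∀ v ∈ X, Cov M v := by
      intro v hv
      obtain ⟨e, he, rfl⟩ := mem_image.mp hv
      rcases ho e with h1 | h1 <;> rw [h1]
      · exact ⟨e, he, Or.inl rfl⟩
      · exact ⟨e, he, Or.inr rfl⟩
    have hYcov : ∀ v ∈ Y, Cov M v := by
      intro v hv
      obtain ⟨e, he, rfl⟩ := mem_image.mp hv
      rcases ho e with h1 | h1 <;> rw [h1]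
      · exact ⟨e, he, Or.inr rfl⟩
      · exact ⟨e, he, Or.inl rfl⟩
    have hYU : ∀ v ∈ Y, ∀ u ∈ U0, ¬ H.Adj u v := by
      intro v hv
      obtain ⟨e, he, rfl⟩ := mem_image.mp hv
      exact hoY e he
    obtain ⟨N, hN, hNc⟩ := hex X Y hXY hXc hYc
    have hNne : ∀ p ∈ N, p.1 ≠ p.2 := by
      intro p hp hh
      exact disjoint_left.mp hXY (hN.memX p hp) (hh ▸ hN.memY p hp)
    have hcard : Fintype.card ({u // u ∈ U0} ⊕ {p // p ∈ N}) = U0.card + M.card := by
      rw [Fintype.card_sum, Fintype.card_coe, Fintype.card_coe, hNc]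
    rw [← hcard]
    apply hasCliqueMinor_of_family
      (Sum.elim (fun u : {u // u ∈ U0} => ({u.1} : Set V))
        (fun p : {p // p ∈ N} => ({p.1.1, p.1.2} : Set V)))
    · rintro (u | p)
      · exact induce_singleton_connected _ _
      · apply SimpleGraph.induce_pair_connected_of_adj
        rw [SimpleGraph.compl_adj]
        exact ⟨hNne p.1 p.2, hN.nadj p.1 p.2⟩
    · rintro (u | p) (u' | p') hij
      · simp only [Sum.elim_inl, Set.disjoint_singleton]
        intro hh
        exact hij (congrArg Sum.inl (Subtype.ext hh))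
      · simp only [Sum.elim_inl, Sum.elim_inr, Set.disjoint_singleton_left, Set.mem_insert_iff,
          Set.mem_singleton_iff, not_or]
        constructor
        · intro hh
          exact ((memU0 u.1).mp u.2).1 (hh ▸ hXcov _ (hN.memX p'.1 p'.2))
        · intro hh
          exact ((memU0 u.1).mp u.2).1 (hh ▸ hYcov _ (hN.memY p'.1 p'.2))
      · simp only [Sum.elim_inl, Sum.elim_inr, Set.disjoint_singleton_right, Set.mem_insert_iff,
          Set.mem_singleton_iff, not_or]
        constructor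
        · intro hh
          exact ((memU0 u'.1).mp u'.2).1 (hh ▸ hXcov _ (hN.memX p.1 p.2))
        · intro hh
          exact ((memU0 u'.1).mp u'.2).1 (hh ▸ hYcov _ (hN.memY p.1 p.2))
      · have hpp : p.1 ≠ p'.1 := fun hh => hij (congrArg Sum.inr (Subtype.ext hh))
        simp only [Sum.elim_inr]
        rw [Set.disjoint_left]
        intro v hv hv'
        simp only [Set.mem_insert_iff, Set.mem_singleton_iff] at hv hv'
        rcases hv with rfl | rfl <;> rcases hv' with hv' | hv'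
        · exact hpp (hN.inj1 _ p.2 _ p'.2 hv')
        · exact disjoint_left.mp hXY (hN.memX _ p.2) (hv' ▸ hN.memY _ p'.2)
        · exact disjoint_left.mp hXY (hN.memX _ p'.2) (hv' ▸ hN.memY _ p.2)
        · exact hpp (hN.inj2 _ p.2 _ p'.2 hv')
    · rintro (u | p) (u' | p') hij
      · refine ⟨u.1, rfl, u'.1, rfl, ?_⟩
        rw [SimpleGraph.compl_adj]
        refine ⟨fun hh => hij (congrArg Sum.inl (Subtype.ext hh)), ?_⟩
        exact max_indep hM hmax ((memU0 u.1).mp u.2).1 ((memU0 u'.1).mp u'.2).1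
      · refine ⟨u.1, rfl, p'.1.2, by simp, ?_⟩
        rw [SimpleGraph.compl_adj]
        refine ⟨fun hh => ((memU0 u.1).mp u.2).1 (hh ▸ hYcov _ (hN.memY p'.1 p'.2)), ?_⟩
        exact hYU _ (hN.memY p'.1 p'.2) u.1 u.2
      · refine ⟨p.1.2, by simp, u'.1, rfl, ?_⟩
        rw [SimpleGraph.compl_adj]
        refine ⟨fun hh => ((memU0 u'.1).mp u'.2).1 (hh ▸ hYcov _ (hN.memY p.1 p.2)), ?_⟩
        exact fun hadj => hYU _ (hN.memY p.1 p.2) u'.1 u'.2 hadj.symm
      · have hpp : p.1 ≠ p'.1 := fun hh => hij (congrArg Sum.inr (Subtype.ext hh))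
        have hnc := hN.noconf _ p.2 _ p'.2 hpp
        have e11 : p.1.1 ≠ p'.1.1 := fun hh => hpp (hN.inj1 _ p.2 _ p'.2 hh)
        have e22 : p.1.2 ≠ p'.1.2 := fun hh => hpp (hN.inj2 _ p.2 _ p'.2 hh)
        have e12 : p.1.1 ≠ p'.1.2 := fun hh =>
          disjoint_left.mp hXY (hN.memX _ p.2) (hh ▸ hN.memY _ p'.2)
        have e21 : p.1.2 ≠ p'.1.1 := fun hh =>
          disjoint_left.mp hXY (hN.memX _ p'.2) (hh ▸ hN.memY _ p.2)
        simp only [Sum.elim_inr]
        by_cases a11 : H.Adj p.1.1 p'.1.1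
        · by_cases a12 : H.Adj p.1.1 p'.1.2
          · by_cases a21 : H.Adj p.1.2 p'.1.1
            · have a22 : ¬ H.Adj p.1.2 p'.1.2 := fun a22 => hnc ⟨a11, a12, a21, a22⟩
              exact ⟨p.1.2, by simp, p'.1.2, by simp, (SimpleGraph.compl_adj _ _ _).mpr ⟨e22, a22⟩⟩
            · exact ⟨p.1.2, by simp, p'.1.1, by simp, (SimpleGraph.compl_adj _ _ _).mpr ⟨e21, a21⟩⟩
          · exact ⟨p.1.1, by simp, p'.1.2, by simp, (SimpleGraph.compl_adj _ _ _).mpr ⟨e12, a12⟩⟩
        · exact ⟨p.1.1, by simp, p'.1.1, by simp, (SimpleGraph.compl_adj _ _ _).mpr ⟨e11, a11⟩⟩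
  · -- the colouring
    have hR : ∀ v, v ∉ U0 → ∃ e, e ∈ M ∧
        (v = e.1 ∨ v = e.2 ∨ (¬ Cov M v ∧ H.Adj v e.1 ∧ H.Adj v e.2)) := by
      intro v hv
      by_cases hc : Cov M v
      · obtain ⟨e, he, hh⟩ := hc
        rcases hh with hh | hh
        · exact ⟨e, he, Or.inl hh⟩
        · exact ⟨e, he, Or.inr (Or.inl hh)⟩
      · have : ∃ e ∈ M, H.Adj v e.1 ∧ H.Adj v e.2 := by
          by_contra hcon
          exact hv ((memU0 v).mpr ⟨hc, hcon⟩)
        obtain ⟨e, he, hh⟩ := this
        exact ⟨e, he, Or.inr (Or.inr ⟨hc, hh⟩)⟩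
    choose! g hgM hg using hR
    have hcard : Fintype.card ({u // u ∈ U0} ⊕ {e // e ∈ M}) = U0.card + M.card := by
      rw [Fintype.card_sum, Fintype.card_coe, Fintype.card_coe]
    rw [← hcard]
    let col : V → ({u // u ∈ U0} ⊕ {e // e ∈ M}) := fun v =>
      if h : v ∈ U0 then Sum.inl ⟨v, h⟩ else Sum.inr ⟨g v, hgM v h⟩
    refine (SimpleGraph.Coloring.mk col ?_).colorable
    intro v w hvw hcol
    rw [SimpleGraph.compl_adj] at hvw
    obtain ⟨hne, hnadj⟩ := hvw
    by_cases hv : v ∈ U0 <;> by_cases hw : w ∈ U0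
    · simp only [col, hv, hw, dif_pos, Sum.inl.injEq, Subtype.mk.injEq] at hcol
      exact hne hcol
    · simp [col, hv, hw] at hcol
    · simp [col, hv, hw] at hcol
    · simp only [col, hv, hw, dif_neg, not_false_eq_true, Sum.inr.injEq, Subtype.mk.injEq] at hcol
      have h1 := hg v hv
      have h2 := hg w hw
      have hgm := hgM v hv
      rw [← hcol] at h2
      have hadj := hM.adj _ hgm
      rcases h1 with h1 | h1 | h1 <;> rcases h2 with h2 | h2 | h2
      · exact hne (h1.trans h2.symm)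
      · exact hnadj (h1 ▸ h2 ▸ hadj)
      · exact hnadj (h1 ▸ h2.2.1.symm)
      · exact hnadj (h1 ▸ h2 ▸ hadj.symm)
      · exact hne (h1.trans h2.symm)
      · exact hnadj (h1 ▸ h2.2.2.symm)
      · exact hnadj (h2 ▸ h1.2.1)
      · exact hnadj (h2 ▸ h1.2.2)
      · exact max_no_aug hM hmax hgm h1.1 h2.1 hne h1.2.1 h2.2.2

theorem compl_minor_and_coloring (H : SimpleGraph V) (d k : ℕ) (hd : ∀ v, (nb H v).card ≤ d)
    (M : Finset (V × V)) (hM : IsPM H M) (hmax : ∀ M', IsPM H M' → M'.card ≤ M.card)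
    (hn : 2 * (k + 1) * d + 2 * d ^ 2 + (k + 1) * (d * k) < (k + 1) * M.card) :
    ∃ U0 : Finset V, (∀ u, u ∈ U0 ↔ (¬ Cov M u ∧ ¬ ∃ e ∈ M, H.Adj u e.1 ∧ H.Adj u e.2)) ∧
      HasCliqueMinor Hᶜ (U0.card + M.card) ∧ Hᶜ.Colorable (U0.card + M.card) := by
  apply compl_minor_and_coloring_gen H k M hM hmax
  intro X Y hXY hXc hYc
  obtain ⟨N, hN, hNc⟩ := exists_valid (H := H) (X := X) (Y := Y) (k := k) (d := d) hXY hd
      (by rw [hXc, hYc]) (by rw [hYc]; exact hn)
  exact ⟨N, hN, by rw [hNc, hYc]⟩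

end Vale.Agent.P060
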