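import Vale.Agent.P060.Defs

namespace Vale.Agent.P060

variable {V : Type*}

theorem HasCliqueMinor.le_card [Fintype V] {G : SimpleGraph V} {t : ℕ}
    (h : HasCliqueMinor G t) : t ≤ Fintype.card V := by
  obtain ⟨B, hc, hd, -⟩ := h
  have hne : ∀ i, ∃ x, x ∈ B i := by
    intro i
    obtain ⟨x⟩ := (hc i).nonempty
    exact ⟨x.1, x.2⟩
  choose f hf using hne
  have hinj : Function.Injective f := by
    intro i j hij
    by_contra hne
    have := Set.disjoint_left.mp (hd i j hne) (hf i)
    exact this (hij ▸ hf j)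
  simpa using Fintype.card_le_of_injective f hinj

theorem HasCliqueMinor.le_hadwigerNumber [Fintype V] {G : SimpleGraph V} {t : ℕ}
    (h : HasCliqueMinor G t) : t ≤ hadwigerNumber G :=
  le_csSup ⟨Fintype.card V, fun _ hs => HasCliqueMinor.le_card hs⟩ h

theorem hasCliqueMinor_of_family {ι : Type*} [Fintype ι] {G : SimpleGraph V} (B : ι → Set V)
    (hc : ∀ i, (G.induce (B i)).Connected)
    (hd : ∀ i j, i ≠ j → Disjoint (B i) (B j))
    (ha : ∀ i j, i ≠ j → ∃ x ∈ B i, ∃ y ∈ B j, G.Adj x y) :
    HasCliqueMinor G (Fintype.card ι) := by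
  let e := (Fintype.equivFin ι).symm
  refine ⟨fun i => B (e i), fun i => hc _, fun i j hij => hd _ _ ?_, fun i j hij => ha _ _ ?_⟩
  · exact fun h => hij (e.injective h)
  · exact fun h => hij (e.injective h)

theorem HasCliqueMinor.mono {G : SimpleGraph V} {s t : ℕ} (hst : s ≤ t)
    (h : HasCliqueMinor G t) : HasCliqueMinor G s := by
  obtain ⟨B, hc, hd, ha⟩ := h
  refine ⟨fun i => B (Fin.castLE hst i), fun i => hc _, fun i j hij => hd _ _ ?_,
    fun i j hij => ha _ _ ?_⟩
  · exact fun h => hij (Fin.castLE_injective hst h)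
  · exact fun h => hij (Fin.castLE_injective hst h)

theorem induce_singleton_connected (G : SimpleGraph V) (v : V) :
    (G.induce ({v} : Set V)).Connected := by
  rw [SimpleGraph.induce_singleton_eq_top]
  exact SimpleGraph.connected_top

end Vale.Agent.P060
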