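import Vale.Agent.P060.Basic

namespace Vale.Agent.P060

open Finset

variable {V : Type*} [Fintype V]

open Classical in
/-- neighbours of `v` in `H` -/
noncomputable def nb (H : SimpleGraph V) (v : V) : Finset V := univ.filter (fun w => H.Adj v w)

open Classical in
/-- common neighbours of `v` and `w` in `H` -/
noncomputable def cn (H : SimpleGraph V) (v w : V) : Finset V :=
  univ.filter (fun z => H.Adj v z ∧ H.Adj w z)

theorem mem_nb {H : SimpleGraph V} {v w : V} : w ∈ nb H v ↔ H.Adj v w := by
  simp [nb]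

theorem mem_cn {H : SimpleGraph V} {v w z : V} : z ∈ cn H v w ↔ H.Adj v z ∧ H.Adj w z := by
  simp [cn]

theorem cn_comm (H : SimpleGraph V) (v w : V) : cn H v w = cn H w v := by
  ext z; simp [mem_cn, and_comm]

/-- the four cross adjacencies between two pairs -/
def Conf (H : SimpleGraph V) (x y : V) (f : V × V) : Prop :=
  H.Adj x f.1 ∧ H.Adj x f.2 ∧ H.Adj y f.1 ∧ H.Adj y f.2

/-- the pair `(x, y)` may be added to `M` -/
def Ok (H : SimpleGraph V) (k : ℕ) (M : Finset (V × V)) (x y : V) : Prop :=
  ¬ H.Adj x y ∧ (cn H x y).card ≤ k ∧ ∀ f ∈ M, ¬ Conf H x y f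

structure Valid (H : SimpleGraph V) (X Y : Finset V) (k : ℕ) (M : Finset (V × V)) : Prop where
  memX : ∀ e ∈ M, e.1 ∈ X
  memY : ∀ e ∈ M, e.2 ∈ Y
  inj1 : ∀ e ∈ M, ∀ f ∈ M, e.1 = f.1 → e = f
  inj2 : ∀ e ∈ M, ∀ f ∈ M, e.2 = f.2 → e = f
  nadj : ∀ e ∈ M, ¬ H.Adj e.1 e.2
  cap : ∀ e ∈ M, (cn H e.1 e.2).card ≤ k
  noconf : ∀ e ∈ M, ∀ f ∈ M, e ≠ f → ¬ Conf H e.1 e.2 f

theorem Valid.empty (H : SimpleGraph V) (X Y : Finset V) (k : ℕ) : Valid H X Y k ∅ := by
  constructor <;> simp

theorem Valid.subset {H : SimpleGraph V} {X Y : Finset V} {k : ℕ} {M M' : Finset (V × V)}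
    (h : Valid H X Y k M) (hs : M' ⊆ M) : Valid H X Y k M' where
  memX e he := h.memX e (hs he)
  memY e he := h.memY e (hs he)
  inj1 e he f hf := h.inj1 e (hs he) f (hs hf)
  inj2 e he f hf := h.inj2 e (hs he) f (hs hf)
  nadj e he := h.nadj e (hs he)
  cap e he := h.cap e (hs he)
  noconf e he f hf := h.noconf e (hs he) f (hs hf)

theorem Conf.symm' {H : SimpleGraph V} {x y : V} {f : V × V} (h : Conf H x y f) :
    Conf H f.1 f.2 (x, y) :=
  ⟨h.1.symm, h.2.2.1.symm, h.2.1.symm, h.2.2.2.symm⟩

theorem Valid.insert [DecidableEq V] {H : SimpleGraph V} {X Y : Finset V} {k : ℕ}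
    {M : Finset (V × V)}
    (h : Valid H X Y k M) {x y : V} (hx : x ∈ X) (hy : y ∈ Y)
    (hx' : ∀ e ∈ M, e.1 ≠ x) (hy' : ∀ e ∈ M, e.2 ≠ y) (hok : Ok H k M x y) :
    Valid H X Y k (insert (x, y) M) where
  memX e he := by
    rcases mem_insert.mp he with rfl | he
    · exact hx
    · exact h.memX e he
  memY e he := by
    rcases mem_insert.mp he with rfl | he
    · exact hy
    · exact h.memY e he
  inj1 e he f hf hef := by
    rcases mem_insert.mp he with rfl | he <;> rcases mem_insert.mp hf with rfl | hf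
    · rfl
    · exact absurd hef.symm (hx' f hf)
    · exact absurd hef (hx' e he)
    · exact h.inj1 e he f hf hef
  inj2 e he f hf hef := by
    rcases mem_insert.mp he with rfl | he <;> rcases mem_insert.mp hf with rfl | hf
    · rfl
    · exact absurd hef.symm (hy' f hf)
    · exact absurd hef (hy' e he)
    · exact h.inj2 e he f hf hef
  nadj e he := by
    rcases mem_insert.mp he with rfl | he
    · exact hok.1
    · exact h.nadj e he
  cap e he := by
    rcases mem_insert.mp he with rfl | he
    · exact hok.2.1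
    · exact h.cap e he
  noconf e he f hf hef := by
    rcases mem_insert.mp he with rfl | he <;> rcases mem_insert.mp hf with rfl | hf
    · exact absurd rfl hef
    · exact hok.2.2 f hf
    · exact fun hc => hok.2.2 e he hc.symm'
    · exact h.noconf e he f hf hef

open Classical in
/-- vertices with more than `k` common neighbours with `v` -/
noncomputable def big (H : SimpleGraph V) (k : ℕ) (v : V) : Finset V :=
  univ.filter (fun c => k < (cn H v c).card)

open Classical in
/-- pairs of `M` inside the neighbourhood of `v` -/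
noncomputable def inside (H : SimpleGraph V) (M : Finset (V × V)) (v : V) : Finset (V × V) :=
  M.filter (fun f => H.Adj v f.1 ∧ H.Adj v f.2)

open Classical in
/-- the set of vertices that may not be paired with `v` -/
noncomputable def bad (H : SimpleGraph V) (k : ℕ) (M : Finset (V × V)) (v : V) : Finset V :=
  nb H v ∪ big H k v ∪ (inside H M v).biUnion (fun f => cn H f.1 f.2)

theorem mem_big {H : SimpleGraph V} {k : ℕ} {v c : V} : c ∈ big H k v ↔ k < (cn H v c).card := by
  simp [big]

theorem mem_inside {H : SimpleGraph V} {M : Finset (V × V)} {v : V} {f : V × V} :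
    f ∈ inside H M v ↔ f ∈ M ∧ H.Adj v f.1 ∧ H.Adj v f.2 := by
  simp [inside]

theorem ok_of_not_mem_bad {H : SimpleGraph V} {k : ℕ} {M : Finset (V × V)} {x y : V}
    (h : y ∉ bad H k M x) : Ok H k M x y := by
  classical
  simp only [bad, mem_union, mem_biUnion, mem_nb, mem_cn, mem_big, mem_inside,
    not_or, not_lt, not_exists, not_and] at h
  refine ⟨h.1.1, h.1.2, fun f hf hc => ?_⟩
  exact h.2 f ⟨hf, hc.1, hc.2.1⟩ hc.2.2.1.symm hc.2.2.2.symm

theorem Ok.swap {H : SimpleGraph V} {k : ℕ} {M : Finset (V × V)} {x y : V}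
    (h : Ok H k M x y) : Ok H k M y x :=
  ⟨fun hh => h.1 hh.symm, by rw [cn_comm]; exact h.2.1,
    fun f hf hc => h.2.2 f hf ⟨hc.2.2.1, hc.2.2.2, hc.1, hc.2.1⟩⟩

theorem sum_card_cn (H : SimpleGraph V) (v : V) :
    ∑ c, (cn H v c).card = ∑ z ∈ nb H v, (nb H z).card := by
  classical
  simp only [cn, nb, card_filter]
  rw [sum_comm, sum_filter]
  apply sum_congr rfl
  intro z _
  by_cases h : H.Adj v z
  · simp [h, H.adj_comm]
  · simp [h]

theorem big_card {H : SimpleGraph V} {d : ℕ} (hd : ∀ v, (nb H v).card ≤ d) (k : ℕ) (v : V) :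
    (k + 1) * (big H k v).card ≤ d ^ 2 := by
  classical
  calc (k + 1) * (big H k v).card
      = ∑ c ∈ big H k v, (k + 1) := by
        rw [sum_const, smul_eq_mul, mul_comm]
    _ ≤ ∑ c ∈ big H k v, (cn H v c).card := by
        apply sum_le_sum
        intro c hc
        exact mem_big.mp hc
    _ ≤ ∑ c, (cn H v c).card := by
        apply sum_le_sum_of_subset
        exact subset_univ _
    _ = ∑ z ∈ nb H v, (nb H z).card := sum_card_cn H v
    _ ≤ ∑ z ∈ nb H v, d := sum_le_sum (fun z _ => hd z)
    _ = (nb H v).card * d := by rw [sum_const, smul_eq_mul]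
    _ ≤ d * d := Nat.mul_le_mul_right d (hd v)
    _ = d ^ 2 := by ring

theorem inside_card {H : SimpleGraph V} {X Y : Finset V} {k d : ℕ} {M : Finset (V × V)}
    (h : Valid H X Y k M) (hXY : Disjoint X Y) (hd : ∀ v, (nb H v).card ≤ d) (v : V) :
    2 * (inside H M v).card ≤ d := by
  classical
  set P := inside H M v with hP
  have h1 : P.card ≤ (nb H v ∩ X).card := by
    apply card_le_card_of_injOn Prod.fst
    · intro e he
      have he' := mem_inside.mp he
      exact mem_coe.mpr (mem_inter.mpr ⟨mem_nb.mpr he'.2.1, h.memX e he'.1⟩)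
    · intro e he f hf hef
      exact h.inj1 e (mem_inside.mp he).1 f (mem_inside.mp hf).1 hef
  have h2 : P.card ≤ (nb H v ∩ Y).card := by
    apply card_le_card_of_injOn Prod.snd
    · intro e he
      have he' := mem_inside.mp he
      exact mem_coe.mpr (mem_inter.mpr ⟨mem_nb.mpr he'.2.2, h.memY e he'.1⟩)
    · intro e he f hf hef
      exact h.inj2 e (mem_inside.mp he).1 f (mem_inside.mp hf).1 hef
  have h3 : (nb H v ∩ X).card + (nb H v ∩ Y).card ≤ (nb H v).card := by
    rw [← card_union_of_disjoint]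
    · apply card_le_card
      intro z hz
      rcases mem_union.mp hz with hz | hz <;> exact (mem_inter.mp hz).1
    · exact disjoint_of_subset_left inter_subset_right
        (disjoint_of_subset_right inter_subset_right hXY)
  have := hd v
  omega

theorem bad_card {H : SimpleGraph V} {X Y : Finset V} {k d : ℕ} {M : Finset (V × V)}
    (h : Valid H X Y k M) (hXY : Disjoint X Y) (hd : ∀ v, (nb H v).card ≤ d) (v : V) :
    2 * (k + 1) * (bad H k M v).card ≤ 2 * (k + 1) * d + 2 * d ^ 2 + (k + 1) * (d * k) := by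
  classical
  have h1 : (bad H k M v).card ≤ (nb H v).card + (big H k v).card
      + ((inside H M v).biUnion (fun f => cn H f.1 f.2)).card := by
    unfold bad
    refine (card_union_le _ _).trans ?_
    gcongr
    exact card_union_le _ _
  have h2 : ((inside H M v).biUnion (fun f => cn H f.1 f.2)).card ≤ (inside H M v).card * k := by
    refine card_biUnion_le.trans ?_
    rw [← smul_eq_mul]
    apply sum_le_card_nsmul
    intro f hf
    exact h.cap f (mem_inside.mp hf).1
  have h3 := inside_card h hXY hd v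
  have h4 := big_card hd k v
  have h5 := hd v
  generalize (bad H k M v).card = a at *
  generalize (big H k v).card = b at *
  generalize ((inside H M v).biUnion (fun f => cn H f.1 f.2)).card = c at *
  generalize (inside H M v).card = p at *
  generalize (nb H v).card = n at *
  have h6 : 2 * c ≤ d * k := by
    calc 2 * c ≤ 2 * (p * k) := by omega
      _ = (2 * p) * k := by ring
      _ ≤ d * k := Nat.mul_le_mul_right k h3
  calc 2 * (k + 1) * a ≤ 2 * (k + 1) * (n + b + c) := Nat.mul_le_mul_left _ h1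
    _ = 2 * (k + 1) * n + 2 * ((k + 1) * b) + (k + 1) * (2 * c) := by ring
    _ ≤ 2 * (k + 1) * d + 2 * d ^ 2 + (k + 1) * (d * k) := by
        gcongr

end Vale.Agent.P060
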