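import Vale.Agent.P060.Assemble

namespace Vale.Agent.P060

open Finset

variable {V : Type*} [Fintype V]

theorem nb_card_eq (H : SimpleGraph V) (v : V) : (nb H v).card = (H.neighborSet v).ncard := by
  classical
  rw [← Set.ncard_coe_finset]
  congr 1
  ext w
  simp [mem_nb]

theorem isPM_of_fun {H : SimpleGraph V} {n : ℕ} (a b : Fin n → V)
    (hinj : Function.Injective (Sum.elim a b)) (hab : ∀ i, H.Adj (a i) (b i)) :
    ∃ M : Finset (V × V), IsPM H M ∧ M.card = n := by
  classical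
  refine ⟨univ.image (fun i => (a i, b i)), ⟨?_, ?_⟩, ?_⟩
  · intro e he
    obtain ⟨i, -, rfl⟩ := mem_image.mp he
    exact hab i
  · intro e he f hf hef
    obtain ⟨i, -, rfl⟩ := mem_image.mp he
    obtain ⟨j, -, rfl⟩ := mem_image.mp hf
    have hij : i ≠ j := fun h => hef (by rw [h])
    refine ⟨fun h => hij ?_, fun h => ?_, fun h => ?_, fun h => hij ?_⟩
    · have := @hinj (Sum.inl i) (Sum.inl j) h
      exact Sum.inl.inj this
    · have := @hinj (Sum.inl i) (Sum.inr j) h
      exact Sum.inl_ne_inr this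
    · have := @hinj (Sum.inr i) (Sum.inl j) h
      exact Sum.inr_ne_inl this
    · have := @hinj (Sum.inr i) (Sum.inr j) h
      exact Sum.inr.inj this
  · rw [card_image_of_injective, card_univ, Fintype.card_fin]
    intro i j hij
    have h1 : a i = a j := congrArg Prod.fst hij
    have := @hinj (Sum.inl i) (Sum.inl j) h1
    exact Sum.inl.inj this

/-- parametrised form -/
theorem hadwiger_of_sparse_compl_param (G : SimpleGraph V) (d k n : ℕ)
    (hdeg : ∀ v, (Gᶜ.neighborSet v).ncard ≤ d)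
    (a b : Fin n → V) (hinj : Function.Injective (Sum.elim a b))
    (hab : ∀ i, Gᶜ.Adj (a i) (b i))
    (hn : 2 * (k + 1) * d + 2 * d ^ 2 + (k + 1) * (d * k) < (k + 1) * n) :
    G.chromaticNumber ≤ (hadwigerNumber G : ℕ∞) := by
  obtain ⟨M0, hM0, hM0c⟩ := isPM_of_fun a b hinj hab
  obtain ⟨M, hM, hmax⟩ := exists_max_PM Gᶜ
  have hle : n ≤ M.card := hM0c ▸ hmax M0 hM0
  have hd : ∀ v, (nb Gᶜ v).card ≤ d := fun v => by rw [nb_card_eq]; exact hdeg v
  have hn' : 2 * (k + 1) * d + 2 * d ^ 2 + (k + 1) * (d * k) < (k + 1) * M.card :=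
    lt_of_lt_of_le hn (Nat.mul_le_mul_left _ hle)
  obtain ⟨U0, -, hminor, hcol⟩ := compl_minor_and_coloring Gᶜ d k hd M hM hmax hn'
  rw [compl_compl] at hminor hcol
  calc G.chromaticNumber ≤ ((U0.card + M.card : ℕ) : ℕ∞) := hcol.chromaticNumber_le
    _ ≤ (hadwigerNumber G : ℕ∞) := by exact_mod_cast hminor.le_hadwigerNumber

theorem exists_param {d n : ℕ} (hn : 8 * d ^ 3 + 2 * n * d < n ^ 2) :
    ∃ k : ℕ, 2 * (k + 1) * d + 2 * d ^ 2 + (k + 1) * (d * k) < (k + 1) * n := by
  rcases Nat.eq_zero_or_pos d with rfl | hd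
  · refine ⟨0, ?_⟩
    have : 0 < n := by
      rcases Nat.eq_zero_or_pos n with rfl | h
      · simp at hn
      · exact h
    simpa using this
  · have h2d : 2 * d < n := by
      by_contra hcon
      have hle : n ≤ 2 * d := by omega
      have : n ^ 2 ≤ 2 * n * d := by nlinarith
      omega
    set q := n / (2 * d) with hq
    set r := n % (2 * d) with hr
    have hdiv : n = 2 * d * q + r := (Nat.div_add_mod n (2 * d)).symm
    have hrlt : r < 2 * d := Nat.mod_lt _ (by omega)
    have hqpos : 1 ≤ q := by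
      rw [hq]
      exact (Nat.one_le_div_iff (by omega)).mpr h2d.le
    obtain ⟨k, hk⟩ : ∃ k, q = k + 1 := ⟨q - 1, by omega⟩
    refine ⟨k, ?_⟩
    rw [← hk]
    have hk' : (k : ℤ) = q - 1 := by omega
    zify at hn hdiv hrlt hqpos ⊢
    rw [hk']
    have hd' : (0 : ℤ) < d := by exact_mod_cast hd
    have hr0 : (0 : ℤ) ≤ r := by positivity
    have hsq : ((r : ℤ) - d) ^ 2 ≤ d ^ 2 := by
      have h1 : (r : ℤ) - d ≤ d := by linarith
      have h2 : -(d : ℤ) ≤ r - d := by linarith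
      nlinarith
    have key : (4 * (d : ℤ)) * (2 * q * d + 2 * d ^ 2 + q * (d * (q - 1)))
        < (4 * (d : ℤ)) * (q * n) := by
      rw [hdiv] at hn ⊢
      nlinarith
    exact lt_of_mul_lt_mul_left key (by positivity)

theorem hadwiger_of_sparse_compl (G : SimpleGraph V) (d n : ℕ)
    (hdeg : ∀ v, (Gᶜ.neighborSet v).ncard ≤ d)
    (a b : Fin n → V) (hinj : Function.Injective (Sum.elim a b))
    (hab : ∀ i, Gᶜ.Adj (a i) (b i))
    (hn : 8 * d ^ 3 + 2 * n * d < n ^ 2) :
    G.chromaticNumber ≤ (hadwigerNumber G : ℕ∞) := by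
  obtain ⟨k, hk⟩ := exists_param hn
  exact hadwiger_of_sparse_compl_param G d k n hdeg a b hinj hab hk

end Vale.Agent.P060
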