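import Vale.Agent.P060.Step

namespace Vale.Agent.P060

open Finset

variable {V : Type*} [Fintype V]

open Classical in
/-- weight of `w`: `2 ^ load * s ^ (number of neighbours not yet charged)` -/
noncomputable def wt (H : SimpleGraph V) (s : ℝ) (L : V → ℕ) (Z : Finset V) (w : V) : ℝ :=
  2 ^ (L w) * s ^ ((nb H w \ Z).card)

open Classical in
/-- add one to the load on `C` -/
noncomputable def addL (L : V → ℕ) (C : Finset V) : V → ℕ :=
  fun w => L w + if w ∈ C then 1 else 0

theorem wt_nonneg (H : SimpleGraph V) {s : ℝ} (hs : 0 ≤ s) (L : V → ℕ) (Z : Finset V) (w : V) :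
    0 ≤ wt H s L Z w := by
  unfold wt; positivity

theorem card_sdiff_insert_of_adj [DecidableEq V] {H : SimpleGraph V} {x w : V} {Z : Finset V}
    (hx : x ∉ Z) (hadj : H.Adj x w) :
    (nb H w \ Z).card = (nb H w \ insert x Z).card + 1 := by
  rw [sdiff_insert, card_erase_of_mem]
  · have : 0 < (nb H w \ Z).card := card_pos.mpr ⟨x, mem_sdiff.mpr ⟨mem_nb.mpr hadj.symm, hx⟩⟩
    omega
  · exact mem_sdiff.mpr ⟨mem_nb.mpr hadj.symm, hx⟩

theorem sdiff_insert_of_not_adj [DecidableEq V] {H : SimpleGraph V} {x w : V} {Z : Finset V}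
    (hadj : ¬ H.Adj x w) :
    nb H w \ insert x Z = nb H w \ Z := by
  rw [sdiff_insert, erase_eq_of_notMem]
  intro h
  exact hadj (mem_nb.mp (mem_sdiff.mp h).1).symm

open Classical in
theorem wt_op {H : SimpleGraph V} {s : ℝ} (L : V → ℕ) {Z C : Finset V} {x : V}
    (hx : x ∉ Z) (hC : C ⊆ nb H x) (w : V) :
    s * wt H s (addL L C) (insert x Z) w = s * wt H s L Z w
      - (s - 1) * (if w ∈ nb H x then wt H s L Z w else 0)
      + (if w ∈ C then wt H s L Z w else 0) := by
  by_cases hw : w ∈ nb H x
  · have hadj : H.Adj x w := mem_nb.mp hw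
    have hc := card_sdiff_insert_of_adj (Z := Z) hx hadj
    by_cases hwC : w ∈ C
    · simp only [wt, addL, hw, hwC, if_true]
      rw [hc]
      ring
    · simp only [wt, addL, hw, hwC, if_true, if_false]
      rw [hc]
      ring
  · have hadj : ¬ H.Adj x w := fun h => hw (mem_nb.mpr h)
    have hwC : w ∉ C := fun h => hw (hC h)
    simp only [wt, addL, hw, hwC, if_false]
    rw [sdiff_insert_of_not_adj hadj]
    ring

open Classical in
theorem sum_wt_op {H : SimpleGraph V} {s : ℝ} (L : V → ℕ) {Z C W : Finset V} {x : V}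
    (hx : x ∉ Z) (hC : C ⊆ nb H x) (hW : nb H x ⊆ W) :
    s * ∑ w ∈ W, wt H s (addL L C) (insert x Z) w = s * ∑ w ∈ W, wt H s L Z w
      - (s - 1) * ∑ w ∈ nb H x, wt H s L Z w + ∑ w ∈ C, wt H s L Z w := by
  rw [mul_sum]
  rw [sum_congr rfl (fun w _ => wt_op L hx hC w)]
  rw [sum_add_distrib, sum_sub_distrib, ← mul_sum, ← mul_sum, sum_ite_mem, sum_ite_mem,
    inter_eq_right.mpr hW, inter_eq_right.mpr (hC.trans hW)]

open Classical in
theorem wt_op_le {H : SimpleGraph V} {s : ℝ} (hs1 : 1 ≤ s) (L : V → ℕ) {Z C : Finset V} {x : V}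
    (hx : x ∉ Z) (hC : C ⊆ nb H x) (w : V) :
    wt H s (addL L C) (insert x Z) w ≤ 2 * wt H s L Z w := by
  have h := wt_op (s := s) L hx hC w
  have h0 := wt_nonneg H (by linarith : (0:ℝ) ≤ s) L Z w
  have h1 := wt_nonneg H (by linarith : (0:ℝ) ≤ s) (addL L C) (insert x Z) w
  have hle : s * wt H s (addL L C) (insert x Z) w ≤ s * (2 * wt H s L Z w) := by
    rw [h]
    by_cases hw : w ∈ nb H x
    · by_cases hwC : w ∈ C
      · simp only [hw, hwC, if_true]; nlinarith
      · simp only [hw, hwC, if_true, if_false]; nlinarith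
    · have hwC : w ∉ C := fun h => hw (hC h)
      simp only [hw, hwC, if_false]; nlinarith
  exact le_of_mul_le_mul_left hle (by linarith)

open Classical in
theorem le_wt_op {H : SimpleGraph V} {s : ℝ} (hs1 : 1 ≤ s) (L : V → ℕ) {Z C : Finset V} {x : V}
    (hx : x ∉ Z) (hC : C ⊆ nb H x) (w : V) :
    wt H s L Z w ≤ s * wt H s (addL L C) (insert x Z) w := by
  have h := wt_op (s := s) L hx hC w
  have h0 := wt_nonneg H (by linarith : (0:ℝ) ≤ s) L Z w
  rw [h]
  by_cases hw : w ∈ nb H x
  · by_cases hwC : w ∈ C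
    · simp only [hw, hwC, if_true]; nlinarith
    · simp only [hw, hwC, if_true, if_false]; nlinarith
  · have hwC : w ∉ C := fun h => hw (hC h)
    simp only [hw, hwC, if_false]; nlinarith

/-- weighted double counting -/
theorem sum_sum_cn_le {H : SimpleGraph V} {d : ℕ} (hd : ∀ v, (nb H v).card ≤ d) (x : V)
    (f : V → ℝ) (hf : ∀ w, 0 ≤ f w) (O : Finset V) :
    ∑ y ∈ O, ∑ w ∈ cn H x y, f w ≤ d * ∑ w ∈ nb H x, f w := by
  classical
  calc ∑ y ∈ O, ∑ w ∈ cn H x y, f w ≤ ∑ y, ∑ w ∈ cn H x y, f w := by
        apply sum_le_sum_of_subset_of_nonneg (subset_univ _)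
        intro y _ _
        exact sum_nonneg (fun w _ => hf w)
    _ = ∑ w ∈ nb H x, ((nb H w).card : ℝ) * f w := by
        simp only [cn, nb, sum_filter]
        rw [sum_comm]
        apply sum_congr rfl
        intro w _
        by_cases h : H.Adj x w
        · simp only [h, true_and, if_true]
          rw [← sum_filter, sum_const, nsmul_eq_mul]
          have : (univ.filter (fun y => H.Adj y w)) = (univ.filter (fun y => H.Adj w y)) := by
            ext y
            simp [H.adj_comm]
          rw [this]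
        · simp [h]
    _ ≤ ∑ w ∈ nb H x, (d : ℝ) * f w := by
        apply sum_le_sum
        intro w _
        exact mul_le_mul_of_nonneg_right (by exact_mod_cast hd w) (hf w)
    _ = d * ∑ w ∈ nb H x, f w := by rw [mul_sum]

theorem inside_insert_card_le [DecidableEq V] {H : SimpleGraph V} {M : Finset (V × V)} {L : V → ℕ}
    (hL : ∀ w, (inside H M w).card ≤ L w) (x y : V) (w : V) :
    (inside H (insert (x, y) M) w).card ≤ addL L (cn H x y) w := by
  classical
  unfold addL
  by_cases hw : w ∈ cn H x y
  · have hsub : inside H (insert (x, y) M) w ⊆ insert (x, y) (inside H M w) := by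
      intro f hf
      have := mem_inside.mp hf
      rcases mem_insert.mp this.1 with rfl | h
      · exact mem_insert_self _ _
      · exact mem_insert_of_mem (mem_inside.mpr ⟨h, this.2⟩)
    have h1 := card_le_card hsub
    have h2 := card_insert_le (x, y) (inside H M w)
    have h3 := hL w
    simp only [hw, if_true]
    omega
  · have hsub : inside H (insert (x, y) M) w ⊆ inside H M w := by
      intro f hf
      have := mem_inside.mp hf
      rcases mem_insert.mp this.1 with rfl | h
      · exact absurd (mem_cn.mpr ⟨this.2.1.symm, this.2.2.symm⟩) hw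
      · exact mem_inside.mpr ⟨h, this.2⟩
    have h1 := card_le_card hsub
    have h3 := hL w
    simp only [hw, if_false]
    omega

theorem inside_subset_card_le {H : SimpleGraph V} {M M' : Finset (V × V)} (hs : M' ⊆ M) (w : V) :
    (inside H M' w).card ≤ (inside H M w).card := by
  apply card_le_card
  intro f hf
  have := mem_inside.mp hf
  exact mem_inside.mpr ⟨hs this.1, this.2⟩

theorem cn_subset_nb (H : SimpleGraph V) (x y : V) : cn H x y ⊆ nb H x := by
  intro w hw
  exact mem_nb.mpr (mem_cn.mp hw).1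

/-- bound on the bad set in terms of a load bound -/
theorem bad_card_load {H : SimpleGraph V} {X Y : Finset V} {k d p b : ℕ} {M : Finset (V × V)}
    (h : Valid H X Y k M) (hd : ∀ v, (nb H v).card ≤ d) (hbig : ∀ v, (big H k v).card ≤ b) (v : V)
    (hp : (inside H M v).card ≤ p) :
    (bad H k M v).card ≤ d + b + p * k := by
  classical
  have h1 : (bad H k M v).card ≤ (nb H v).card + (big H k v).card
      + ((inside H M v).biUnion (fun f => cn H f.1 f.2)).card := by
    unfold bad
    refine (card_union_le _ _).trans ?_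
    gcongr
    exact card_union_le _ _
  have h2 : ((inside H M v).biUnion (fun f => cn H f.1 f.2)).card ≤ (inside H M v).card * k := by
    refine card_biUnion_le.trans ?_
    rw [← smul_eq_mul]
    apply sum_le_card_nsmul
    intro f hf
    exact h.cap f (mem_inside.mp hf).1
  have h4 := hbig v
  have h5 := hd v
  have h6 : (inside H M v).card * k ≤ p * k := Nat.mul_le_mul_right k hp
  omega

theorem big_card_div {H : SimpleGraph V} {d : ℕ} (hd : ∀ v, (nb H v).card ≤ d) (k : ℕ) (v : V) :
    (big H k v).card ≤ d ^ 2 / (k + 1) := by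
  rw [Nat.le_div_iff_mul_le (by omega), mul_comm]
  exact big_card hd k v

end Vale.Agent.P060
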