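import Vale.Agent.P060.LoadStep
import Vale.Agent.P060.Final

namespace Vale.Agent.P060

open Finset

variable {V : Type*} [Fintype V]

theorem exists_valid_load {H : SimpleGraph V} {X Y : Finset V} {k d p b : ℕ} {s : ℝ}
    (hXY : Disjoint X Y) (hd : ∀ v, (nb H v).card ≤ d) (hbig : ∀ v, (big H k v).card ≤ b)
    (hcard : X.card = Y.card)
    (hs1 : 1 ≤ s) (hs2 : s ≤ 2) (hsn : 16 * (d : ℝ) ≤ (s - 1) * Y.card)
    (hB : (Fintype.card V : ℝ) * s ^ d < 2 ^ p)
    (hbad : 8 * (d + b + p * k) ≤ Y.card) :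
    ∃ M, Valid H X Y k M ∧ M.card = Y.card := by
  classical
  have key : ∀ j, j ≤ Y.card → ∃ M L Z,
      LInv H X Y k s ((Fintype.card V : ℝ) * s ^ d) univ M L Z ∧ M.card = j := by
    intro j
    induction j with
    | zero =>
      intro _
      refine ⟨∅, fun _ => 0, ∅, ⟨Valid.empty H X Y k, ?_, ?_, ?_⟩, rfl⟩
      · intro w; simp [inside]
      · intro z hz; simp at hz
      · calc ∑ w, wt H s (fun _ => 0) ∅ w ≤ ∑ _w : V, s ^ d := by
              apply sum_le_sum
              intro w _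
              unfold wt
              simp only [pow_zero, one_mul, sdiff_empty]
              exact pow_le_pow_right₀ hs1 (hd w)
          _ = (Fintype.card V : ℝ) * s ^ d := by
              rw [sum_const, card_univ, nsmul_eq_mul]
    | succ j ih =>
      intro hj
      obtain ⟨M, L, Z, hI, hMc⟩ := ih (by omega)
      obtain ⟨M', L', Z', hI', hMc'⟩ := linv_step hXY hd hbig (fun _ _ => subset_univ _)
        (fun _ _ => subset_univ _) hs1 hs2 hsn hB hbad hcard hI (by omega)
      exact ⟨M', L', Z', hI', by omega⟩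
  obtain ⟨M, L, Z, hI, hMc⟩ := key _ le_rfl
  exact ⟨M, hI.valid, hMc⟩

theorem exp_two_le : Real.exp 2 ≤ 8 := by
  have h1 : Real.exp 1 < 2.7182818286 := Real.exp_one_lt_d9
  have h2 : Real.exp 2 = Real.exp 1 * Real.exp 1 := by
    rw [← Real.exp_add]; norm_num
  have h0 : 0 < Real.exp 1 := Real.exp_pos 1
  rw [h2]
  nlinarith

theorem pow_bound {d n t : ℕ} (hn : 0 < n) (ht : d ^ 2 ≤ t * n) :
    (1 + 16 * (d : ℝ) / n) ^ d ≤ 2 ^ (24 * t) := by
  have hn' : (0 : ℝ) < n := by exact_mod_cast hn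
  have h1 : (1 + 16 * (d : ℝ) / n) ≤ Real.exp (16 * (d : ℝ) / n) := by
    have := Real.add_one_le_exp (16 * (d : ℝ) / n)
    linarith
  have h0 : (0 : ℝ) ≤ 1 + 16 * (d : ℝ) / n := by positivity
  calc (1 + 16 * (d : ℝ) / n) ^ d ≤ (Real.exp (16 * (d : ℝ) / n)) ^ d :=
        pow_le_pow_left₀ h0 h1 d
    _ = Real.exp (d * (16 * (d : ℝ) / n)) := by rw [← Real.exp_nat_mul]
    _ ≤ Real.exp ((8 * t : ℕ) * 2) := by
        apply Real.exp_le_exp.mpr
        have ht' : (d : ℝ) ^ 2 ≤ t * n := by exact_mod_cast ht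
        have : (d : ℝ) * (16 * (d : ℝ) / n) = 16 * ((d : ℝ) ^ 2 / n) := by ring
        rw [this]
        have h2 : (d : ℝ) ^ 2 / n ≤ t := by
          rw [div_le_iff₀ hn']; exact ht'
        push_cast
        linarith
    _ = (Real.exp 2) ^ (8 * t) := by rw [Real.exp_nat_mul]
    _ ≤ 8 ^ (8 * t) := pow_le_pow_left₀ (Real.exp_pos 2).le exp_two_le _
    _ = 2 ^ (24 * t) := by
        rw [show (8 : ℝ) = 2 ^ 3 by norm_num, ← pow_mul]
        congr 1
        ring

theorem exists_valid_load' {H : SimpleGraph V} {X Y : Finset V} {d t l : ℕ}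
    (hXY : Disjoint X Y) (hd : ∀ v, (nb H v).card ≤ d) (hcard : X.card = Y.card)
    (ht1 : 1 ≤ t) (ht : d ^ 2 ≤ t * Y.card) (hl : Fintype.card V ≤ 2 ^ l)
    (hn : 512 * t * (l + 24 * t + 1) ≤ Y.card) :
    ∃ M, Valid H X Y (32 * t - 1) M ∧ M.card = Y.card := by
  set n := Y.card with hnY
  have hbig : 12800 * t ≤ n := by
    calc 12800 * t = 512 * t * 25 := by ring
      _ ≤ 512 * t * (l + 24 * t + 1) := by
          apply Nat.mul_le_mul_left
          omega
      _ ≤ n := hn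
  have hnpos : 0 < n := by omega
  have h32 : 32 * d ≤ n := by
    by_contra hcon
    have h1 : n < 32 * d := by omega
    have h2 : n * n < 1024 * d ^ 2 := by nlinarith
    have h3 : 1024 * d ^ 2 ≤ 1024 * (t * n) := Nat.mul_le_mul_left _ ht
    have h4 : n * n < (1024 * t) * n := by nlinarith
    have h5 : n < 1024 * t := lt_of_mul_lt_mul_right h4 (Nat.zero_le _)
    omega
  have hn' : (0 : ℝ) < n := by exact_mod_cast hnpos
  apply exists_valid_load (d := d) (p := l + 24 * t + 1) (s := 1 + 16 * (d : ℝ) / n)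
    (b := d ^ 2 / (32 * t - 1 + 1)) hXY hd (big_card_div hd _) hcard
  · have : (0 : ℝ) ≤ 16 * (d : ℝ) / n := by positivity
    linarith
  · have h32' : (32 : ℝ) * d ≤ n := by exact_mod_cast h32
    have : 16 * (d : ℝ) / n ≤ 1 := by
      rw [div_le_one hn']; linarith [show (0 : ℝ) ≤ d by positivity]
    linarith
  · have : (1 + 16 * (d : ℝ) / n - 1) * n = 16 * d := by
      field_simp
      ring
    rw [this]
  · have h1 := pow_bound hnpos ht
    have h2 : (Fintype.card V : ℝ) ≤ 2 ^ l := by exact_mod_cast hl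
    calc (Fintype.card V : ℝ) * (1 + 16 * (d : ℝ) / n) ^ d ≤ 2 ^ l * 2 ^ (24 * t) := by
          apply mul_le_mul h2 h1 (by positivity) (by positivity)
      _ = 2 ^ (l + 24 * t) := by rw [pow_add]
      _ < 2 ^ (l + 24 * t + 1) := by
          apply pow_lt_pow_right₀ (by norm_num) (by omega)
  · have hk : 32 * t - 1 + 1 = 32 * t := by omega
    rw [hk]
    have h1 : d ^ 2 / (32 * t) ≤ n / 32 := by
      calc d ^ 2 / (32 * t) ≤ (t * n) / (32 * t) := Nat.div_le_div_right ht
        _ = (t * n) / (t * 32) := by rw [mul_comm 32 t]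
        _ = n / 32 := Nat.mul_div_mul_left n 32 (by omega)
    have h2 : 16 * ((l + 24 * t + 1) * (32 * t - 1)) ≤ n := by
      calc 16 * ((l + 24 * t + 1) * (32 * t - 1)) ≤ 16 * ((l + 24 * t + 1) * (32 * t)) := by
            apply Nat.mul_le_mul_left
            apply Nat.mul_le_mul_left
            omega
        _ = 512 * t * (l + 24 * t + 1) := by ring
        _ ≤ n := hn
    omega

/-- Hadwiger's conjecture for graphs with sparse complement: exponent `4/3` version -/
theorem hadwiger_of_sparse_compl_load (G : SimpleGraph V) (d n t l : ℕ)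
    (hdeg : ∀ v, (Gᶜ.neighborSet v).ncard ≤ d)
    (a b : Fin n → V) (hinj : Function.Injective (Sum.elim a b))
    (hab : ∀ i, Gᶜ.Adj (a i) (b i))
    (ht1 : 1 ≤ t) (ht : d ^ 2 ≤ t * n) (hl : Fintype.card V ≤ 2 ^ l)
    (hn : 512 * t * (l + 24 * t + 1) ≤ n) :
    G.chromaticNumber ≤ (hadwigerNumber G : ℕ∞) := by
  obtain ⟨M0, hM0, hM0c⟩ := isPM_of_fun a b hinj hab
  obtain ⟨M, hM, hmax⟩ := exists_max_PM Gᶜ
  have hle : n ≤ M.card := hM0c ▸ hmax M0 hM0
  have hd : ∀ v, (nb Gᶜ v).card ≤ d := fun v => by rw [nb_card_eq]; exact hdeg v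
  obtain ⟨U0, -, hminor, hcol⟩ := compl_minor_and_coloring_gen Gᶜ (32 * t - 1) M hM hmax (by
    intro X Y hXY hXc hYc
    obtain ⟨N, hN, hNc⟩ := exists_valid_load' (H := Gᶜ) (X := X) (Y := Y) (d := d) (t := t) (l := l)
      hXY hd (by rw [hXc, hYc]) ht1
      (by rw [hYc]; exact ht.trans (Nat.mul_le_mul_left t hle)) hl (by rw [hYc]; exact hn.trans hle)
    exact ⟨N, hN, by rw [hNc, hYc]⟩)
  rw [compl_compl] at hminor hcol
  calc G.chromaticNumber ≤ ((U0.card + M.card : ℕ) : ℕ∞) := hcol.chromaticNumber_le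
    _ ≤ (hadwigerNumber G : ℕ∞) := by exact_mod_cast hminor.le_hadwigerNumber

end Vale.Agent.P060
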