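import Vale.Agent.P060.Step

namespace Vale.Agent.P060

open Finset

variable {V : Type*}

/-- `M` is a set of pairwise disjoint edges of `H` -/
structure IsPM (H : SimpleGraph V) (M : Finset (V × V)) : Prop where
  adj : ∀ e ∈ M, H.Adj e.1 e.2
  disj : ∀ e ∈ M, ∀ f ∈ M, e ≠ f → e.1 ≠ f.1 ∧ e.1 ≠ f.2 ∧ e.2 ≠ f.1 ∧ e.2 ≠ f.2

/-- `v` is an end of a pair of `M` -/
def Cov (M : Finset (V × V)) (v : V) : Prop := ∃ e ∈ M, v = e.1 ∨ v = e.2

theorem IsPM.subset {H : SimpleGraph V} {M M' : Finset (V × V)} (h : IsPM H M) (hs : M' ⊆ M) :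
    IsPM H M' :=
  ⟨fun e he => h.adj e (hs he), fun e he f hf => h.disj e (hs he) f (hs hf)⟩

theorem Cov.mono {M M' : Finset (V × V)} {v : V} (hs : M' ⊆ M) (h : Cov M' v) : Cov M v := by
  obtain ⟨e, he, hv⟩ := h
  exact ⟨e, hs he, hv⟩

theorem isPM_insert [DecidableEq V] {H : SimpleGraph V} {M : Finset (V × V)} (h : IsPM H M)
    {a b : V} (hab : H.Adj a b) (ha : ¬ Cov M a) (hb : ¬ Cov M b) :
    IsPM H (insert (a, b) M) ∧ (a, b) ∉ M := by
  have ha1 : ∀ f ∈ M, a ≠ f.1 ∧ a ≠ f.2 := fun f hf =>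
    ⟨fun hh => ha ⟨f, hf, Or.inl hh⟩, fun hh => ha ⟨f, hf, Or.inr hh⟩⟩
  have hb1 : ∀ f ∈ M, b ≠ f.1 ∧ b ≠ f.2 := fun f hf =>
    ⟨fun hh => hb ⟨f, hf, Or.inl hh⟩, fun hh => hb ⟨f, hf, Or.inr hh⟩⟩
  refine ⟨⟨?_, ?_⟩, fun hmem => (ha1 _ hmem).1 rfl⟩
  · intro e he
    rcases mem_insert.mp he with rfl | he
    · exact hab
    · exact h.adj e he
  · intro e he f hf hef
    rcases mem_insert.mp he with rfl | he <;> rcases mem_insert.mp hf with rfl | hf
    · exact absurd rfl hef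
    · exact ⟨(ha1 f hf).1, (ha1 f hf).2, (hb1 f hf).1, (hb1 f hf).2⟩
    · exact ⟨(ha1 e he).1.symm, (hb1 e he).1.symm, (ha1 e he).2.symm, (hb1 e he).2.symm⟩
    · exact h.disj e he f hf hef

theorem cov_insert [DecidableEq V] {M : Finset (V × V)} {a b v : V}
    (h : Cov (insert (a, b) M) v) : v = a ∨ v = b ∨ Cov M v := by
  obtain ⟨e, he, hv⟩ := h
  rcases mem_insert.mp he with rfl | he
  · rcases hv with hv | hv
    · exact Or.inl hv
    · exact Or.inr (Or.inl hv)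
  · exact Or.inr (Or.inr ⟨e, he, hv⟩)

theorem not_cov_erase [DecidableEq V] {H : SimpleGraph V} {M : Finset (V × V)} (h : IsPM H M)
    {e : V × V} (he : e ∈ M) : ¬ Cov (M.erase e) e.1 ∧ ¬ Cov (M.erase e) e.2 := by
  constructor
  · rintro ⟨f, hf, hv⟩
    have := h.disj e he f (mem_of_mem_erase hf) (ne_of_mem_erase hf).symm
    rcases hv with hv | hv
    · exact this.1 hv
    · exact this.2.1 hv
  · rintro ⟨f, hf, hv⟩
    have := h.disj e he f (mem_of_mem_erase hf) (ne_of_mem_erase hf).symm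
    rcases hv with hv | hv
    · exact this.2.2.1 hv
    · exact this.2.2.2 hv

theorem exists_max_PM [Fintype V] (H : SimpleGraph V) :
    ∃ M, IsPM H M ∧ ∀ M', IsPM H M' → M'.card ≤ M.card := by
  classical
  have hne : ((univ : Finset (Finset (V × V))).filter (IsPM H)).Nonempty :=
    ⟨∅, mem_filter.mpr ⟨mem_univ _, ⟨by simp, by simp⟩⟩⟩
  obtain ⟨M, hM, hmax⟩ := exists_max_image _ Finset.card hne
  exact ⟨M, (mem_filter.mp hM).2, fun M' hM' => hmax M' (mem_filter.mpr ⟨mem_univ _, hM'⟩)⟩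

theorem max_indep {H : SimpleGraph V} {M : Finset (V × V)} (h : IsPM H M)
    (hmax : ∀ M', IsPM H M' → M'.card ≤ M.card) {u u' : V} (hu : ¬ Cov M u) (hu' : ¬ Cov M u') :
    ¬ H.Adj u u' := by
  classical
  intro hadj
  obtain ⟨h1, h2⟩ := isPM_insert h hadj hu hu'
  have := hmax _ h1
  rw [card_insert_of_notMem h2] at this
  omega

theorem max_no_aug {H : SimpleGraph V} {M : Finset (V × V)} (h : IsPM H M)
    (hmax : ∀ M', IsPM H M' → M'.card ≤ M.card) {e : V × V} (he : e ∈ M) {u u' : V}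
    (hu : ¬ Cov M u) (hu' : ¬ Cov M u') (hne : u ≠ u') (h1 : H.Adj u e.1) (h2 : H.Adj u' e.2) :
    False := by
  classical
  have hE := h.subset (erase_subset e M)
  obtain ⟨hc1, hc2⟩ := not_cov_erase h he
  have hsub := erase_subset e M
  obtain ⟨hA, hA'⟩ := isPM_insert hE h1 (fun hc => hu (hc.mono hsub)) hc1
  have hB1 : ¬ Cov (insert (u, e.1) (M.erase e)) u' := by
    intro hc
    rcases cov_insert hc with hh | hh | hh
    · exact hne hh.symm
    · exact hu' ⟨e, he, Or.inl hh⟩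
    · exact hu' (hh.mono hsub)
  have hB2 : ¬ Cov (insert (u, e.1) (M.erase e)) e.2 := by
    intro hc
    rcases cov_insert hc with hh | hh | hh
    · exact hu ⟨e, he, Or.inr hh.symm⟩
    · exact (h.adj e he).ne hh.symm
    · exact hc2 hh
  obtain ⟨hB, hB'⟩ := isPM_insert hA h2 hB1 hB2
  have := hmax _ hB
  rw [card_insert_of_notMem hB', card_insert_of_notMem hA', card_erase_of_mem he] at this
  have : 0 < M.card := card_pos.mpr ⟨e, he⟩
  omega

end Vale.Agent.P060
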