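import Vale.Agent.P060.Load
import Vale.Agent.P060.Main

namespace Vale.Agent.P060

open Finset

variable {V : Type*} [Fintype V]

structure LInv (H : SimpleGraph V) (X Y : Finset V) (k : ℕ) (s B : ℝ) (W : Finset V)
    (M : Finset (V × V)) (L : V → ℕ) (Z : Finset V) : Prop where
  valid : Valid H X Y k M
  load : ∀ w, (inside H M w).card ≤ L w
  zc : ∀ z ∈ Z, Cov M z
  pot : ∑ w ∈ W, wt H s L Z w ≤ B

theorem LInv.inside_le {H : SimpleGraph V} {X Y : Finset V} {k p : ℕ} {s B : ℝ} {W : Finset V}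
    {M : Finset (V × V)} {L : V → ℕ} {Z : Finset V} (h : LInv H X Y k s B W M L Z)
    (hs1 : 1 ≤ s) (hW : ∀ z ∈ X, nb H z ⊆ W) (hB : B < 2 ^ p) (w : V) :
    (inside H M w).card ≤ p := by
  classical
  by_cases hw : w ∈ W
  · have h1 : (2 : ℝ) ^ (L w) ≤ wt H s L Z w := by
      unfold wt
      have : (1 : ℝ) ≤ s ^ ((nb H w \ Z).card) := one_le_pow₀ hs1
      nlinarith [pow_pos (by norm_num : (0 : ℝ) < 2) (L w)]
    have h2 : wt H s L Z w ≤ ∑ w ∈ W, wt H s L Z w :=
      single_le_sum (f := fun w => wt H s L Z w)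
        (fun v _ => wt_nonneg H (by linarith) L Z v) hw
    have h3 : (2 : ℝ) ^ (L w) < 2 ^ p := lt_of_le_of_lt (h1.trans (h2.trans h.pot)) hB
    have h4 : L w < p := (pow_lt_pow_iff_right₀ (by norm_num : (1 : ℝ) < 2)).mp h3
    have := h.load w
    omega
  · have : inside H M w = ∅ := by
      rw [eq_empty_iff_forall_notMem]
      intro f hf
      have hf' := mem_inside.mp hf
      exact hw (hW f.1 (h.valid.memX f hf'.1) (mem_nb.mpr hf'.2.1.symm))
    rw [this]
    simp

theorem exists_small_cost {α : Type*} (O : Finset α) (cost : α → ℝ) (hc : ∀ a, 0 ≤ cost a)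
    {n d : ℕ} {S δ : ℝ} (hn : 0 < n) (hO : n ≤ 4 * O.card) (hS : 0 ≤ S)
    (hsum : ∑ a ∈ O, cost a ≤ d * S) (hδ : 16 * (d : ℝ) ≤ δ * n) :
    ∃ a ∈ O, 4 * cost a ≤ δ * S := by
  have hne : O.Nonempty := by
    rw [← card_pos]; omega
  obtain ⟨a, ha, hmin⟩ := exists_min_image O cost hne
  refine ⟨a, ha, ?_⟩
  have h1 : (O.card : ℝ) * cost a ≤ ∑ b ∈ O, cost b := by
    have := card_nsmul_le_sum O cost (cost a) hmin
    rwa [nsmul_eq_mul] at this
  have hn' : (0 : ℝ) < n := by exact_mod_cast hn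
  have hO' : (n : ℝ) ≤ 4 * O.card := by exact_mod_cast hO
  have h2 : (n : ℝ) * (4 * cost a) ≤ n * (δ * S) := by
    calc (n : ℝ) * (4 * cost a) ≤ (4 * O.card) * (4 * cost a) :=
          mul_le_mul_of_nonneg_right hO' (by have := hc a; linarith)
      _ = 16 * ((O.card : ℝ) * cost a) := by ring
      _ ≤ 16 * (d * S) := by linarith [h1.trans hsum]
      _ = (16 * d) * S := by ring
      _ ≤ (δ * n) * S := mul_le_mul_of_nonneg_right hδ hS
      _ = n * (δ * S) := by ring
  exact le_of_mul_le_mul_left h2 hn'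

theorem linv_step {H : SimpleGraph V} {X Y : Finset V} {k d p b : ℕ} {s B : ℝ} {W : Finset V}
    {M : Finset (V × V)} {L : V → ℕ} {Z : Finset V}
    (hXY : Disjoint X Y) (hd : ∀ v, (nb H v).card ≤ d) (hbig : ∀ v, (big H k v).card ≤ b)
    (hWX : ∀ z ∈ X, nb H z ⊆ W) (hWY : ∀ z ∈ Y, nb H z ⊆ W)
    (hs1 : 1 ≤ s) (hs2 : s ≤ 2) (hsn : 16 * (d : ℝ) ≤ (s - 1) * Y.card) (hB : B < 2 ^ p)
    (hbad : 8 * (d + b + p * k) ≤ Y.card) (hcard : X.card = Y.card)
    (hI : LInv H X Y k s B W M L Z) (hlt : M.card < Y.card) :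
    ∃ M' L' Z', LInv H X Y k s B W M' L' Z' ∧ M'.card = M.card + 1 := by
  classical
  have h := hI.valid
  have hs0 : (0 : ℝ) ≤ s := by linarith
  have hspos : (0 : ℝ) < s := by linarith
  have hbd : ∀ v, 8 * (bad H k M v).card ≤ Y.card := fun v =>
    le_trans (Nat.mul_le_mul_left 8 (bad_card_load h hd hbig v (hI.inside_le hs1 hWX hB v))) hbad
  obtain ⟨x0, hx0, hx0'⟩ : ∃ x ∈ X, x ∉ M.image Prod.fst :=
    exists_mem_notMem_of_card_lt_card (lt_of_le_of_lt card_image_le (hcard ▸ hlt))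
  obtain ⟨y0, hy0, hy0'⟩ : ∃ y ∈ Y, y ∉ M.image Prod.snd :=
    exists_mem_notMem_of_card_lt_card (lt_of_le_of_lt card_image_le hlt)
  have hx0M : ∀ e ∈ M, e.1 ≠ x0 := fun e he hh => hx0' (mem_image.mpr ⟨e, he, hh⟩)
  have hy0M : ∀ e ∈ M, e.2 ≠ y0 := fun e he hh => hy0' (mem_image.mpr ⟨e, he, hh⟩)
  have hx0Z : x0 ∉ Z := by
    intro hz
    obtain ⟨e, he, hh⟩ := hI.zc x0 hz
    rcases hh with hh | hh
    · exact hx0M e he hh.symm
    · exact disjoint_left.mp hXY hx0 (hh ▸ h.memY e he)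
  have hy0Z : y0 ∉ Z := by
    intro hz
    obtain ⟨e, he, hh⟩ := hI.zc y0 hz
    rcases hh with hh | hh
    · exact disjoint_left.mp hXY (h.memX e he) (hh ▸ hy0)
    · exact hy0M e he hh.symm
  have hxy0 : y0 ≠ x0 := fun hh => disjoint_left.mp hXY hx0 (hh ▸ hy0)
  have hnpos : 0 < Y.card := by omega
  set ψ := wt H s L Z with hψ
  have hψ0 : ∀ w, 0 ≤ ψ w := fun w => wt_nonneg H hs0 L Z w
  set Ψx := ∑ w ∈ nb H x0, ψ w with hΨx
  set Ψy := ∑ w ∈ nb H y0, ψ w with hΨy
  have hΨx0 : 0 ≤ Ψx := sum_nonneg (fun w _ => hψ0 w)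
  have hΨy0 : 0 ≤ Ψy := sum_nonneg (fun w _ => hψ0 w)
  set O1 := Y.filter (fun y => y ∉ M.image Prod.snd ∧ y ∉ bad H k M x0) with hO1
  by_cases hA : Y.card ≤ 4 * O1.card
  · -- direct extension
    obtain ⟨y, hyO, hycost⟩ := exists_small_cost O1 (fun y => ∑ w ∈ cn H x0 y, ψ w)
      (fun y => sum_nonneg (fun w _ => hψ0 w)) hnpos hA hΨx0
      (sum_sum_cn_le hd x0 ψ hψ0 O1) hsn
    obtain ⟨hy, hyM, hyb⟩ := mem_filter.mp hyO
    have hyM' : ∀ e ∈ M, e.2 ≠ y := fun e he hh => hyM (mem_image.mpr ⟨e, he, hh⟩)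
    refine ⟨insert (x0, y) M, addL L (cn H x0 y), insert x0 Z, ⟨?_, ?_, ?_, ?_⟩, ?_⟩
    · exact h.insert hx0 hy hx0M hyM' (ok_of_not_mem_bad hyb)
    · exact inside_insert_card_le hI.load x0 y
    · intro z hz
      rcases mem_insert.mp hz with rfl | hz
      · exact ⟨(z, y), mem_insert_self _ _, Or.inl rfl⟩
      · exact (hI.zc z hz).mono (subset_insert _ _)
    · have hop := sum_wt_op (s := s) L hx0Z (cn_subset_nb H x0 y) (hWX x0 hx0)
      have hc0 : 0 ≤ ∑ w ∈ cn H x0 y, ψ w := sum_nonneg (fun w _ => hψ0 w)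
      have hle : s * ∑ w ∈ W, wt H s (addL L (cn H x0 y)) (insert x0 Z) w
          ≤ s * ∑ w ∈ W, wt H s L Z w := by
        rw [hop]
        have : ∑ w ∈ cn H x0 y, ψ w ≤ (s - 1) * Ψx := by linarith
        linarith
      exact (le_of_mul_le_mul_left hle hspos).trans hI.pot
    · apply card_insert_of_notMem
      intro hmem
      exact hx0M _ hmem rfl
  · -- switching
    set O2 := M.filter (fun e => e.2 ∉ bad H k M x0 ∧ e.1 ∉ bad H k M y0) with hO2
    have hO2card : Y.card ≤ 4 * O2.card := by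
      -- unmatched vertices of Y lie in O1 or in bad x0
      have hu : (Y \ M.image Prod.snd).card ≤ O1.card + (bad H k M x0).card := by
        refine le_trans (card_le_card ?_) (card_union_le _ _)
        intro y hy
        obtain ⟨hyY, hyM⟩ := mem_sdiff.mp hy
        by_cases hyb : y ∈ bad H k M x0
        · exact mem_union_right _ hyb
        · exact mem_union_left _ (mem_filter.mpr ⟨hyY, hyM, hyb⟩)
      have himg : (M.image Prod.snd).card = M.card :=
        card_image_of_injOn (fun e he f hf hef => h.inj2 e he f hf hef)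
      have hsubY : M.image Prod.snd ⊆ Y := by
        intro y hy
        obtain ⟨e, he, rfl⟩ := mem_image.mp hy
        exact h.memY e he
      have hsd : (Y \ M.image Prod.snd).card = Y.card - M.card := by
        rw [card_sdiff_of_subset hsubY, himg]
      have hrest : (M \ O2).card ≤ (bad H k M x0).card + (bad H k M y0).card := by
        have hsub : M \ O2 ⊆ M.filter (fun e => e.2 ∈ bad H k M x0)
            ∪ M.filter (fun e => e.1 ∈ bad H k M y0) := by
          intro e he
          obtain ⟨heM, heO⟩ := mem_sdiff.mp he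
          by_cases h2 : e.2 ∈ bad H k M x0
          · exact mem_union_left _ (mem_filter.mpr ⟨heM, h2⟩)
          · apply mem_union_right
            refine mem_filter.mpr ⟨heM, ?_⟩
            by_contra h1
            exact heO (mem_filter.mpr ⟨heM, h2, h1⟩)
        refine le_trans (card_le_card hsub) (le_trans (card_union_le _ _) ?_)
        apply Nat.add_le_add
        · apply card_le_card_of_injOn Prod.snd
          · intro e he
            exact mem_coe.mpr (mem_filter.mp he).2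
          · intro e he f hf hef
            exact h.inj2 e (mem_filter.mp he).1 f (mem_filter.mp hf).1 hef
        · apply card_le_card_of_injOn Prod.fst
          · intro e he
            exact mem_coe.mpr (mem_filter.mp he).2
          · intro e he f hf hef
            exact h.inj1 e (mem_filter.mp he).1 f (mem_filter.mp hf).1 hef
      have hMO : (M \ O2).card = M.card - O2.card := by
        rw [card_sdiff_of_subset (filter_subset _ _)]
      have hO2le : O2.card ≤ M.card := card_le_card (filter_subset _ _)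
      have b1 := hbd x0
      have b2 := hbd y0
      omega
    have hsum : ∑ e ∈ O2, (∑ w ∈ cn H x0 e.2, ψ w + ∑ w ∈ cn H y0 e.1, ψ w)
        ≤ d * (Ψx + Ψy) := by
      rw [sum_add_distrib, mul_add]
      apply add_le_add
      · have : ∑ e ∈ O2, ∑ w ∈ cn H x0 e.2, ψ w
            = ∑ y ∈ O2.image Prod.snd, ∑ w ∈ cn H x0 y, ψ w := by
          rw [sum_image]
          intro e he f hf hef
          exact h.inj2 e (mem_filter.mp he).1 f (mem_filter.mp hf).1 hef
        rw [this]
        exact sum_sum_cn_le hd x0 ψ hψ0 _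
      · have : ∑ e ∈ O2, ∑ w ∈ cn H y0 e.1, ψ w
            = ∑ y ∈ O2.image Prod.fst, ∑ w ∈ cn H y0 y, ψ w := by
          rw [sum_image]
          intro e he f hf hef
          exact h.inj1 e (mem_filter.mp he).1 f (mem_filter.mp hf).1 hef
        rw [this]
        exact sum_sum_cn_le hd y0 ψ hψ0 _
    obtain ⟨e, heO, hecost⟩ := exists_small_cost O2
      (fun e => ∑ w ∈ cn H x0 e.2, ψ w + ∑ w ∈ cn H y0 e.1, ψ w)
      (fun e => add_nonneg (sum_nonneg (fun w _ => hψ0 w)) (sum_nonneg (fun w _ => hψ0 w)))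
      hnpos hO2card (add_nonneg hΨx0 hΨy0) hsum hsn
    obtain ⟨he, he2, he1⟩ := mem_filter.mp heO
    have hok1 : Ok H k M x0 e.2 := ok_of_not_mem_bad he2
    have hok2 : Ok H k M e.1 y0 := (ok_of_not_mem_bad he1).swap
    have hE : Valid H X Y k (M.erase e) := h.subset (erase_subset _ _)
    have hVA : Valid H X Y k (insert (x0, e.2) (M.erase e)) := by
      apply hE.insert hx0 (h.memY e he)
      · intro f hf
        exact hx0M f (mem_of_mem_erase hf)
      · intro f hf hh
        exact (ne_of_mem_erase hf) (h.inj2 f (mem_of_mem_erase hf) e he hh)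
      · exact ⟨hok1.1, hok1.2.1, fun f hf => hok1.2.2 f (mem_of_mem_erase hf)⟩
    have hVB : Valid H X Y k (insert (e.1, y0) (insert (x0, e.2) (M.erase e))) := by
      apply hVA.insert (h.memX e he) hy0
      · intro f hf hh
        rcases mem_insert.mp hf with rfl | hf
        · exact hx0M e he hh.symm
        · exact (ne_of_mem_erase hf) (h.inj1 f (mem_of_mem_erase hf) e he hh)
      · intro f hf hh
        rcases mem_insert.mp hf with rfl | hf
        · exact hy0M e he hh
        · exact hy0M f (mem_of_mem_erase hf) hh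
      · refine ⟨hok2.1, hok2.2.1, fun f hf => ?_⟩
        rcases mem_insert.mp hf with rfl | hf
        · intro hc
          exact h.nadj e he hc.2.1
        · exact hok2.2.2 f (mem_of_mem_erase hf)
    set L1 := addL L (cn H x0 e.2) with hL1
    set Z1 := insert x0 Z with hZ1
    have hy0Z1 : y0 ∉ Z1 := by
      intro hz
      rcases mem_insert.mp hz with hz | hz
      · exact hxy0 hz
      · exact hy0Z hz
    refine ⟨insert (e.1, y0) (insert (x0, e.2) (M.erase e)), addL L1 (cn H y0 e.1),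
      insert y0 Z1, ⟨hVB, ?_, ?_, ?_⟩, ?_⟩
    · have hl0 : ∀ w, (inside H (M.erase e) w).card ≤ L w := fun w =>
        (inside_subset_card_le (erase_subset _ _) w).trans (hI.load w)
      have hl1 := inside_insert_card_le hl0 x0 e.2
      have hl2 := inside_insert_card_le hl1 e.1 y0
      rw [cn_comm H e.1 y0] at hl2
      exact hl2
    · intro z hz
      rcases mem_insert.mp hz with rfl | hz
      · exact ⟨(e.1, z), mem_insert_self _ _, Or.inr rfl⟩
      rcases mem_insert.mp hz with rfl | hz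
      · exact ⟨(z, e.2), mem_insert_of_mem (mem_insert_self _ _), Or.inl rfl⟩
      obtain ⟨f, hf, hh⟩ := hI.zc z hz
      by_cases hfe : f = e
      · subst hfe
        rcases hh with hh | hh
        · exact ⟨(f.1, y0), mem_insert_self _ _, Or.inl hh⟩
        · exact ⟨(x0, f.2), mem_insert_of_mem (mem_insert_self _ _), Or.inr hh⟩
      · exact ⟨f, mem_insert_of_mem (mem_insert_of_mem (mem_erase.mpr ⟨hfe, hf⟩)), hh⟩
    · have hop1 := sum_wt_op (s := s) L hx0Z (cn_subset_nb H x0 e.2) (hWX x0 hx0)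
      have hop2 := sum_wt_op (s := s) L1 hy0Z1 (cn_subset_nb H y0 e.1) (hWY y0 hy0)
      have hc1 : ∑ w ∈ cn H y0 e.1, wt H s L1 Z1 w ≤ 2 * ∑ w ∈ cn H y0 e.1, ψ w := by
        rw [mul_sum]
        exact sum_le_sum (fun w _ => wt_op_le hs1 L hx0Z (cn_subset_nb H x0 e.2) w)
      have hc2 : Ψy ≤ s * ∑ w ∈ nb H y0, wt H s L1 Z1 w := by
        rw [mul_sum]
        exact sum_le_sum (fun w _ => le_wt_op hs1 L hx0Z (cn_subset_nb H x0 e.2) w)
      have hΨ1 : 0 ≤ ∑ w ∈ nb H y0, wt H s L1 Z1 w :=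
        sum_nonneg (fun w _ => wt_nonneg H hs0 L1 Z1 w)
      have hc3 : Ψy ≤ 2 * ∑ w ∈ nb H y0, wt H s L1 Z1 w := by nlinarith
      have hcc1 : 0 ≤ ∑ w ∈ cn H x0 e.2, ψ w := sum_nonneg (fun w _ => hψ0 w)
      have hcc2 : 0 ≤ ∑ w ∈ cn H y0 e.1, ψ w := sum_nonneg (fun w _ => hψ0 w)
      have hle : s * ∑ w ∈ W, wt H s (addL L1 (cn H y0 e.1)) (insert y0 Z1) w
          ≤ s * ∑ w ∈ W, wt H s L Z w := by
        rw [hop2, hop1]
        have hs1' : 0 ≤ s - 1 := by linarith
        have k1 : (s - 1) * Ψy ≤ (s - 1) * (2 * ∑ w ∈ nb H y0, wt H s L1 Z1 w) :=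
          mul_le_mul_of_nonneg_left hc3 hs1'
        have k2 : 0 ≤ (s - 1) * Ψx := mul_nonneg hs1' hΨx0
        have k3 : 0 ≤ (s - 1) * Ψy := mul_nonneg hs1' hΨy0
        have k4 : 4 * (∑ w ∈ cn H x0 e.2, ψ w + ∑ w ∈ cn H y0 e.1, ψ w)
            ≤ (s - 1) * Ψx + (s - 1) * Ψy := by
          have := hecost
          linarith
        linarith
      exact (le_of_mul_le_mul_left hle hspos).trans hI.pot
    · have hc1 : (x0, e.2) ∉ M.erase e := fun hmem => hx0M _ (mem_of_mem_erase hmem) rfl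
      have hc2 : (e.1, y0) ∉ insert (x0, e.2) (M.erase e) := by
        intro hmem
        rcases mem_insert.mp hmem with hh | hh
        · exact hy0M e he (congrArg Prod.snd hh).symm
        · exact hy0M _ (mem_of_mem_erase hh) rfl
      rw [card_insert_of_notMem hc2, card_insert_of_notMem hc1, card_erase_of_mem he]
      have : 0 < M.card := card_pos.mpr ⟨e, he⟩
      omega

end Vale.Agent.P060
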