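import Vale.Agent.P060.Core

namespace Vale.Agent.P060

open Finset

variable {V : Type*} [Fintype V]

theorem valid_step_gen {H : SimpleGraph V} {X Y : Finset V} {k T : ℕ} {M : Finset (V × V)}
    (h : Valid H X Y k M) (hb : ∀ v, 2 * (bad H k M v).card ≤ T)
    (hX : M.card < X.card) (hY : M.card < Y.card) (hn : T < Y.card) :
    ∃ M', Valid H X Y k M' ∧ M'.card = M.card + 1 := by
  classical
  obtain ⟨x0, hx0, hx0'⟩ : ∃ x ∈ X, x ∉ M.image Prod.fst :=
    exists_mem_notMem_of_card_lt_card (lt_of_le_of_lt card_image_le hX)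
  obtain ⟨y0, hy0, hy0'⟩ : ∃ y ∈ Y, y ∉ M.image Prod.snd :=
    exists_mem_notMem_of_card_lt_card (lt_of_le_of_lt card_image_le hY)
  have hx0M : ∀ e ∈ M, e.1 ≠ x0 := fun e he hh => hx0' (mem_image.mpr ⟨e, he, hh⟩)
  have hy0M : ∀ e ∈ M, e.2 ≠ y0 := fun e he hh => hy0' (mem_image.mpr ⟨e, he, hh⟩)
  by_cases h1 : ∃ y ∈ Y, y ∉ M.image Prod.snd ∧ y ∉ bad H k M x0
  · obtain ⟨y, hy, hyM, hyb⟩ := h1
    have hyM' : ∀ e ∈ M, e.2 ≠ y := fun e he hh => hyM (mem_image.mpr ⟨e, he, hh⟩)
    refine ⟨insert (x0, y) M, h.insert hx0 hy hx0M hyM' (ok_of_not_mem_bad hyb), ?_⟩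
    apply card_insert_of_notMem
    intro hmem
    exact hx0M _ hmem rfl
  by_cases h2 : ∃ e ∈ M, e.2 ∉ bad H k M x0 ∧ e.1 ∉ bad H k M y0
  · obtain ⟨e, he, he2, he1⟩ := h2
    have hok1 : Ok H k M x0 e.2 := ok_of_not_mem_bad he2
    have hok2 : Ok H k M e.1 y0 := (ok_of_not_mem_bad he1).swap
    have hE : Valid H X Y k (M.erase e) := h.subset (erase_subset _ _)
    have hA : Valid H X Y k (insert (x0, e.2) (M.erase e)) := by
      apply hE.insert hx0 (h.memY e he)
      · intro f hf
        exact hx0M f (mem_of_mem_erase hf)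
      · intro f hf hh
        exact (ne_of_mem_erase hf) (h.inj2 f (mem_of_mem_erase hf) e he hh)
      · exact ⟨hok1.1, hok1.2.1, fun f hf => hok1.2.2 f (mem_of_mem_erase hf)⟩
    have hB : Valid H X Y k (insert (e.1, y0) (insert (x0, e.2) (M.erase e))) := by
      apply hA.insert (h.memX e he) hy0
      · intro f hf hh
        rcases mem_insert.mp hf with rfl | hf
        · exact hx0M e he hh.symm
        · exact (ne_of_mem_erase hf) (h.inj1 f (mem_of_mem_erase hf) e he hh)
      · intro f hf hh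
        rcases mem_insert.mp hf with rfl | hf
        · exact hy0M e he hh
        · exact hy0M f (mem_of_mem_erase hf) hh
      · refine ⟨hok2.1, hok2.2.1, fun f hf => ?_⟩
        rcases mem_insert.mp hf with rfl | hf
        · intro hc
          exact h.nadj e he hc.2.1
        · exact hok2.2.2 f (mem_of_mem_erase hf)
    refine ⟨_, hB, ?_⟩
    have hc1 : (x0, e.2) ∉ M.erase e := fun hmem => hx0M _ (mem_of_mem_erase hmem) rfl
    have hc2 : (e.1, y0) ∉ insert (x0, e.2) (M.erase e) := by
      intro hmem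
      rcases mem_insert.mp hmem with hh | hh
      · exact hy0M e he (congrArg Prod.snd hh).symm
      · exact hy0M _ (mem_of_mem_erase hh) rfl
    rw [card_insert_of_notMem hc2, card_insert_of_notMem hc1, card_erase_of_mem he]
    have : 0 < M.card := card_pos.mpr ⟨e, he⟩
    omega
  · exfalso
    push Not at h1 h2
    set Q := M.filter (fun e => e.2 ∉ bad H k M x0) with hQ
    have hsub : Y ⊆ bad H k M x0 ∪ Q.image Prod.snd := by
      intro y hy
      by_cases hyb : y ∈ bad H k M x0
      · exact mem_union_left _ hyb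
      · apply mem_union_right
        have : y ∈ M.image Prod.snd := by
          by_contra hcon
          exact hyb (h1 y hy hcon)
        obtain ⟨e, he, rfl⟩ := mem_image.mp this
        exact mem_image.mpr ⟨e, mem_filter.mpr ⟨he, hyb⟩, rfl⟩
    have hQc : Q.card ≤ (bad H k M y0).card := by
      apply card_le_card_of_injOn Prod.fst
      · intro e he
        have he' := mem_filter.mp he
        exact mem_coe.mpr (h2 e he'.1 he'.2)
      · intro e he f hf hef
        exact h.inj1 e (mem_filter.mp he).1 f (mem_filter.mp hf).1 hef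
    have hYc : Y.card ≤ (bad H k M x0).card + (bad H k M y0).card := by
      calc Y.card ≤ (bad H k M x0 ∪ Q.image Prod.snd).card := card_le_card hsub
        _ ≤ (bad H k M x0).card + (Q.image Prod.snd).card := card_union_le _ _
        _ ≤ (bad H k M x0).card + Q.card := by gcongr; exact card_image_le
        _ ≤ (bad H k M x0).card + (bad H k M y0).card := by gcongr
    have hb1 := hb x0
    have hb2 := hb y0
    omega

theorem valid_step {H : SimpleGraph V} {X Y : Finset V} {k d : ℕ} {M : Finset (V × V)}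
    (h : Valid H X Y k M) (hXY : Disjoint X Y) (hd : ∀ v, (nb H v).card ≤ d)
    (hX : M.card < X.card) (hY : M.card < Y.card)
    (hn : 2 * (k + 1) * d + 2 * d ^ 2 + (k + 1) * (d * k) < (k + 1) * Y.card) :
    ∃ M', Valid H X Y k M' ∧ M'.card = M.card + 1 := by
  apply valid_step_gen (T := (2 * (k + 1) * d + 2 * d ^ 2 + (k + 1) * (d * k)) / (k + 1)) h _ hX hY
  · rw [Nat.div_lt_iff_lt_mul (by omega)]
    rw [mul_comm Y.card]
    exact hn
  · intro v
    rw [Nat.le_div_iff_mul_le (by omega)]
    have := bad_card h hXY hd v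
    calc 2 * (bad H k M v).card * (k + 1) = 2 * (k + 1) * (bad H k M v).card := by ring
      _ ≤ _ := this

theorem exists_valid_gen {H : SimpleGraph V} {X Y : Finset V} {k T : ℕ}
    (hb : ∀ M, Valid H X Y k M → ∀ v, 2 * (bad H k M v).card ≤ T)
    (hcard : X.card = Y.card) (hn : T < Y.card) :
    ∃ M, Valid H X Y k M ∧ M.card = Y.card := by
  have key : ∀ j, j ≤ Y.card → ∃ M, Valid H X Y k M ∧ M.card = j := by
    intro j
    induction j with
    | zero => exact fun _ => ⟨∅, Valid.empty H X Y k, rfl⟩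
    | succ j ih =>
      intro hj
      obtain ⟨M, hM, hMc⟩ := ih (by omega)
      obtain ⟨M', hM', hMc'⟩ := valid_step_gen hM (hb M hM) (by omega) (by omega) hn
      exact ⟨M', hM', by omega⟩
  exact key _ le_rfl

theorem exists_valid {H : SimpleGraph V} {X Y : Finset V} {k d : ℕ}
    (hXY : Disjoint X Y) (hd : ∀ v, (nb H v).card ≤ d) (hcard : X.card = Y.card)
    (hn : 2 * (k + 1) * d + 2 * d ^ 2 + (k + 1) * (d * k) < (k + 1) * Y.card) :
    ∃ M, Valid H X Y k M ∧ M.card = Y.card := by
  have key : ∀ j, j ≤ Y.card → ∃ M, Valid H X Y k M ∧ M.card = j := by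
    intro j
    induction j with
    | zero => exact fun _ => ⟨∅, Valid.empty H X Y k, rfl⟩
    | succ j ih =>
      intro hj
      obtain ⟨M, hM, hMc⟩ := ih (by omega)
      obtain ⟨M', hM', hMc'⟩ := valid_step hM hXY hd (by omega) (by omega) hn
      exact ⟨M', hM', by omega⟩
  exact key _ le_rfl

end Vale.Agent.P060
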