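import Vale.Agent.P060.LoadFinal

namespace Vale.Agent.P060

open Finset

variable {V : Type*} [Fintype V]

theorem card_cov_le (M : Finset (V × V)) [DecidablePred (Cov M)] :
    (univ.filter (fun v => Cov M v)).card ≤ 2 * M.card := by
  classical
  have hsub : univ.filter (fun v => Cov M v) ⊆ M.image Prod.fst ∪ M.image Prod.snd := by
    intro v hv
    obtain ⟨e, he, hh⟩ := (mem_filter.mp hv).2
    rcases hh with rfl | rfl
    · exact mem_union_left _ (mem_image_of_mem _ he)
    · exact mem_union_right _ (mem_image_of_mem _ he)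
  calc (univ.filter (fun v => Cov M v)).card ≤ (M.image Prod.fst ∪ M.image Prod.snd).card :=
        card_le_card hsub
    _ ≤ (M.image Prod.fst).card + (M.image Prod.snd).card := card_union_le _ _
    _ ≤ M.card + M.card := Nat.add_le_add card_image_le card_image_le
    _ = 2 * M.card := by ring

theorem card_cov_eq {H : SimpleGraph V} {M : Finset (V × V)} (hM : IsPM H M)
    [DecidablePred (Cov M)] :
    (univ.filter (fun v => Cov M v)).card = 2 * M.card := by
  classical
  have heq : univ.filter (fun v => Cov M v) = M.image Prod.fst ∪ M.image Prod.snd := by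
    ext v
    simp only [mem_filter, mem_univ, true_and, mem_union, mem_image]
    constructor
    · rintro ⟨e, he, hh⟩
      rcases hh with rfl | rfl
      · exact Or.inl ⟨e, he, rfl⟩
      · exact Or.inr ⟨e, he, rfl⟩
    · rintro (⟨e, he, rfl⟩ | ⟨e, he, rfl⟩)
      · exact ⟨e, he, Or.inl rfl⟩
      · exact ⟨e, he, Or.inr rfl⟩
  have h1 : (M.image Prod.fst).card = M.card := by
    apply card_image_of_injOn
    intro e he f hf hef
    by_contra hcon
    exact (hM.disj e he f hf hcon).1 hef
  have h2 : (M.image Prod.snd).card = M.card := by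
    apply card_image_of_injOn
    intro e he f hf hef
    by_contra hcon
    exact (hM.disj e he f hf hcon).2.2.2 hef
  have hdis : Disjoint (M.image Prod.fst) (M.image Prod.snd) := by
    rw [disjoint_left]
    intro v hv hv'
    obtain ⟨e, he, rfl⟩ := mem_image.mp hv
    obtain ⟨f, hf, hef⟩ := mem_image.mp hv'
    by_cases hcon : e = f
    · subst hcon
      exact (hM.adj e he).ne hef.symm
    · exact (hM.disj e he f hf hcon).2.1 hef.symm
  rw [heq, card_union_of_disjoint hdis, h1, h2]
  ring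

/-- a colouring with `c` colours yields a matching of the complement missing at most `c`
vertices -/
theorem exists_PM_of_colorable {G : SimpleGraph V} {c : ℕ} (hc : G.Colorable c) :
    ∃ M, IsPM Gᶜ M ∧ Fintype.card V ≤ c + 2 * M.card := by
  classical
  obtain ⟨C⟩ := hc
  let H' : SimpleGraph V :=
    { Adj := fun v w => v ≠ w ∧ C v = C w
      symm := ⟨fun v w h => ⟨h.1.symm, h.2.symm⟩⟩
      loopless := ⟨fun v h => h.1 rfl⟩ }
  obtain ⟨M, hM, hmax⟩ := exists_max_PM H'
  refine ⟨M, ⟨?_, hM.disj⟩, ?_⟩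
  · intro e he
    have := hM.adj e he
    rw [SimpleGraph.compl_adj]
    exact ⟨this.1, fun hadj => C.valid hadj this.2⟩
  · have hU : (univ.filter (fun v => ¬ Cov M v)).card ≤ c := by
      have : (univ.filter (fun v => ¬ Cov M v)).card ≤ (univ : Finset (Fin c)).card := by
        apply card_le_card_of_injOn C
        · intro v _
          exact mem_coe.mpr (mem_univ _)
        · intro u hu u' hu' huu
          by_contra hne
          exact max_indep hM hmax (mem_filter.mp hu).2 (mem_filter.mp hu').2 ⟨hne, huu⟩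
      simpa using this
    have hsplit := card_filter_add_card_filter_not (s := (univ : Finset V))
      (fun v => Cov M v)
    have hcov := card_cov_le M
    rw [card_univ] at hsplit
    omega

theorem hadwiger_load_of_PM (G : SimpleGraph V) (d n t l : ℕ)
    (hdeg : ∀ v, (Gᶜ.neighborSet v).ncard ≤ d)
    (M0 : Finset (V × V)) (hM0 : IsPM Gᶜ M0) (hM0c : n ≤ M0.card)
    (ht1 : 1 ≤ t) (ht : d ^ 2 ≤ t * n) (hl : Fintype.card V ≤ 2 ^ l)
    (hn : 512 * t * (l + 24 * t + 1) ≤ n) :
    G.chromaticNumber ≤ (hadwigerNumber G : ℕ∞) := by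
  obtain ⟨M, hM, hmax⟩ := exists_max_PM Gᶜ
  have hle : n ≤ M.card := hM0c.trans (hmax M0 hM0)
  have hd : ∀ v, (nb Gᶜ v).card ≤ d := fun v => by rw [nb_card_eq]; exact hdeg v
  obtain ⟨U0, -, hminor, hcol⟩ := compl_minor_and_coloring_gen Gᶜ (32 * t - 1) M hM hmax (by
    intro X Y hXY hXc hYc
    obtain ⟨N, hN, hNc⟩ := exists_valid_load' (H := Gᶜ) (X := X) (Y := Y) (d := d) (t := t) (l := l)
      hXY hd (by rw [hXc, hYc]) ht1
      (by rw [hYc]; exact ht.trans (Nat.mul_le_mul_left t hle)) hl (by rw [hYc]; exact hn.trans hle)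
    exact ⟨N, hN, by rw [hNc, hYc]⟩)
  rw [compl_compl] at hminor hcol
  calc G.chromaticNumber ≤ ((U0.card + M.card : ℕ) : ℕ∞) := hcol.chromaticNumber_le
    _ ≤ (hadwigerNumber G : ℕ∞) := by exact_mod_cast hminor.le_hadwigerNumber

/-- chromatic-gap form -/
theorem hadwiger_of_chromatic_gap (G : SimpleGraph V) (d n t l c : ℕ)
    (hdeg : ∀ v, (Gᶜ.neighborSet v).ncard ≤ d)
    (hc : G.Colorable c) (hgap : c + 2 * n ≤ Fintype.card V)
    (ht1 : 1 ≤ t) (ht : d ^ 2 ≤ t * n) (hl : Fintype.card V ≤ 2 ^ l)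
    (hn : 512 * t * (l + 24 * t + 1) ≤ n) :
    G.chromaticNumber ≤ (hadwigerNumber G : ℕ∞) := by
  obtain ⟨M0, hM0, hcard⟩ := exists_PM_of_colorable hc
  exact hadwiger_load_of_PM G d n t l hdeg M0 hM0 (by omega) ht1 ht hl hn

/-- an independent set of `H` gives a clique minor of the complement -/
theorem clique_minor_of_indep (H : SimpleGraph V) (U : Finset V)
    (hU : ∀ u ∈ U, ∀ u' ∈ U, ¬ H.Adj u u') : HasCliqueMinor Hᶜ U.card := by
  classical
  have hcard : Fintype.card {u // u ∈ U} = U.card := Fintype.card_coe U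
  rw [← hcard]
  apply hasCliqueMinor_of_family (fun u : {u // u ∈ U} => ({u.1} : Set V))
  · intro u
    exact induce_singleton_connected _ _
  · intro u u' hne
    simp only [Set.disjoint_singleton]
    exact fun hh => hne (Subtype.ext hh)
  · intro u u' hne
    refine ⟨u.1, rfl, u'.1, rfl, ?_⟩
    rw [SimpleGraph.compl_adj]
    exact ⟨fun hh => hne (Subtype.ext hh), hU u.1 u.2 u'.1 u'.2⟩

/-- graphs with independence number at most two and sparse complement have a
`K_{⌈m/2⌉}` minor -/
theorem half_minor_of_indep_two (G : SimpleGraph V) (d n t l : ℕ)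
    (hα : ∀ s : Finset V, G.IsIndepSet s → s.card ≤ 2)
    (hdeg : ∀ v, (Gᶜ.neighborSet v).ncard ≤ d)
    (ht1 : 1 ≤ t) (hl : Fintype.card V ≤ 2 ^ l)
    (ht : d ^ 2 ≤ t * n) (hn : 512 * t * (l + 24 * t + 1) ≤ n)
    (hm : 4 * n ≤ Fintype.card V) :
    HasCliqueMinor G ((Fintype.card V + 1) / 2) := by
  classical
  obtain ⟨M, hM, hmax⟩ := exists_max_PM Gᶜ
  have hd : ∀ v, (nb Gᶜ v).card ≤ d := fun v => by rw [nb_card_eq]; exact hdeg v
  have htri : ∀ u, ∀ e ∈ M, ¬ (Gᶜ.Adj u e.1 ∧ Gᶜ.Adj u e.2) := by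
    intro u e he ⟨h1, h2⟩
    have h3 := hM.adj e he
    have hind : G.IsIndepSet (({u, e.1, e.2} : Finset V) : Set V) := by
      intro x hx y hy hxy
      simp only [coe_insert, coe_singleton, Set.mem_insert_iff, Set.mem_singleton_iff] at hx hy
      rw [SimpleGraph.compl_adj] at h1 h2 h3
      rcases hx with rfl | rfl | rfl <;> rcases hy with rfl | rfl | rfl
      · exact absurd rfl hxy
      · exact h1.2
      · exact h2.2
      · exact fun h => h1.2 h.symm
      · exact absurd rfl hxy
      · exact h3.2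
      · exact fun h => h2.2 h.symm
      · exact fun h => h3.2 h.symm
      · exact absurd rfl hxy
    have hcard : ({u, e.1, e.2} : Finset V).card = 3 := by
      rw [card_insert_of_notMem, card_insert_of_notMem, card_singleton]
      · simpa using h3.ne
      · simp only [mem_insert, mem_singleton, not_or]
        exact ⟨h1.ne, h2.ne⟩
    have := hα _ hind
    omega
  have hsplit := card_filter_add_card_filter_not (s := (univ : Finset V))
    (fun v => Cov M v)
  rw [card_univ, card_cov_eq hM] at hsplit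
  by_cases hbig : n ≤ M.card
  · obtain ⟨U0, hU0, hminor, -⟩ := compl_minor_and_coloring_gen Gᶜ (32 * t - 1) M hM hmax (by
      intro X Y hXY hXc hYc
      obtain ⟨N, hN, hNc⟩ := exists_valid_load' (H := Gᶜ) (X := X) (Y := Y) (d := d) (t := t)
        (l := l) hXY hd (by rw [hXc, hYc]) ht1
        (by rw [hYc]; exact ht.trans (Nat.mul_le_mul_left t hbig)) hl (by rw [hYc]; exact hn.trans hbig)
      exact ⟨N, hN, by rw [hNc, hYc]⟩)
    rw [compl_compl] at hminor
    have hU0eq : U0 = univ.filter (fun v => ¬ Cov M v) := by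
      ext u
      rw [hU0 u]
      simp only [mem_filter, mem_univ, true_and]
      constructor
      · exact fun h => h.1
      · exact fun h => ⟨h, fun ⟨e, he, hh⟩ => htri u e he hh⟩
    rw [hU0eq] at hminor
    exact hminor.mono (by omega)
  · have hminor := clique_minor_of_indep Gᶜ (univ.filter (fun v => ¬ Cov M v)) (by
      intro u hu u' hu'
      exact max_indep hM hmax (mem_filter.mp hu).2 (mem_filter.mp hu').2)
    rw [compl_compl] at hminor
    exact hminor.mono (by omega)

theorem param_of_crisp {d n l : ℕ} (h1 : 51200 * d ^ 4 ≤ n ^ 3) (h2 : 12800 * (l + 1) ^ 2 ≤ n) :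
    ∃ t, 1 ≤ t ∧ d ^ 2 ≤ t * n ∧ 512 * t * (l + 24 * t + 1) ≤ n := by
  have hnpos : 0 < n := by
    have : 0 < 12800 * (l + 1) ^ 2 := by positivity
    omega
  set q := d ^ 2 / n with hq
  have hqn : q * n ≤ d ^ 2 := Nat.div_mul_le_self _ _
  have hlt : d ^ 2 < (q + 1) * n := by
    have := Nat.lt_mul_div_succ (d ^ 2) hnpos
    rw [mul_comm]
    exact this
  have hq1 : 12800 * (q + 1) ^ 2 ≤ n := by
    rcases Nat.eq_zero_or_pos q with h0 | hpos
    · rw [h0]
      nlinarith [h2, Nat.zero_le l]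
    · have h4 : 51200 * q ^ 2 * n ^ 2 ≤ n * n ^ 2 := by
        calc 51200 * q ^ 2 * n ^ 2 = 51200 * (q * n) ^ 2 := by ring
          _ ≤ 51200 * (d ^ 2) ^ 2 := by gcongr
          _ = 51200 * d ^ 4 := by ring
          _ ≤ n ^ 3 := h1
          _ = n * n ^ 2 := by ring
      have h5 : 51200 * q ^ 2 ≤ n := Nat.le_of_mul_le_mul_right h4 (by positivity)
      nlinarith
  rcases le_total (q + 1) (l + 1) with hle | hle
  · refine ⟨l + 1, by omega, ?_, ?_⟩
    · exact hlt.le.trans (Nat.mul_le_mul_right n hle)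
    · nlinarith
  · refine ⟨q + 1, by omega, hlt.le, ?_⟩
    nlinarith

/-- crisp chromatic-gap form -/
theorem hadwiger_of_chromatic_gap_crisp (G : SimpleGraph V) (d n l c : ℕ)
    (hdeg : ∀ v, (Gᶜ.neighborSet v).ncard ≤ d)
    (hc : G.Colorable c) (hgap : c + 2 * n ≤ Fintype.card V)
    (hl : Fintype.card V ≤ 2 ^ l)
    (h1 : 51200 * d ^ 4 ≤ n ^ 3) (h2 : 12800 * (l + 1) ^ 2 ≤ n) :
    G.chromaticNumber ≤ (hadwigerNumber G : ℕ∞) := by
  obtain ⟨t, ht1, ht, hn⟩ := param_of_crisp h1 h2
  exact hadwiger_of_chromatic_gap G d n t l c hdeg hc hgap ht1 ht hl hn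

/-- crisp form for independence number two -/
theorem half_minor_of_indep_two_crisp (G : SimpleGraph V) (d n l : ℕ)
    (hα : ∀ s : Finset V, G.IsIndepSet s → s.card ≤ 2)
    (hdeg : ∀ v, (Gᶜ.neighborSet v).ncard ≤ d)
    (hl : Fintype.card V ≤ 2 ^ l)
    (h1 : 51200 * d ^ 4 ≤ n ^ 3) (h2 : 12800 * (l + 1) ^ 2 ≤ n)
    (hm : 4 * n ≤ Fintype.card V) :
    HasCliqueMinor G ((Fintype.card V + 1) / 2) := by
  obtain ⟨t, ht1, ht, hn⟩ := param_of_crisp h1 h2
  exact half_minor_of_indep_two G d n t l hα hdeg ht1 hl ht hn hm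

end Vale.Agent.P060
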